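import Crest.Agent.R12.BH.LL

/-! Row 12, block BH: plain variables.  Prefix for helper lemmas: `baa_` (part a), `bab_` (part b). -/

set_option autoImplicit false

namespace Crest.Agent.R12.BH

open Crest.Agent.R17 Filter MeasureTheory

/-! ### Part a -/

theorem BaL.mono {l : ℤ} {η η' : ℝ} (h : BaL l η) (hη : η' ≤ η) : BaL l η' := by
  intro k k' c
  obtain ⟨C, N, hC, H⟩ := h k k' c
  refine ⟨C, N, hC, ?_⟩
  filter_upwards [H, eventually_ge_atTop (1 : ℝ)] with Y hY hY1 a A α hy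
  exact hY a A α (hy.mono hY1 hη)

theorem BbL.mono {l : ℤ} {η η' : ℝ} (h : BbL l η) (hη : η' ≤ η) : BbL l η' := by
  intro k k' c
  obtain ⟨C, N, hC, H⟩ := h k k' c
  refine ⟨C, N, hC, ?_⟩
  filter_upwards [H, eventually_ge_atTop (1 : ℝ)] with Y hY hY1 a A α hy
  exact hY a A α (hy.mono hY1 hη)

theorem baa_dvP_LN (k : ℕ) (M t : ℝ) : DvP k fun n => LN 1 M t (nm n) := fun _ hn =>
  (norm_LN_le_one _ _ _ _).trans (one_le_pow₀ (one_le_dn hn.ne_zero))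

theorem baa_al_le (l : ℤ) (n : O) : ‖al n ^ l‖ ≤ 1 := by
  by_cases hn : n = 0
  · subst hn
    have : al (0 : O) = 0 := by simp [al]
    rw [this]
    by_cases hl : l = 0
    · simp [hl]
    · simp [zero_zpow l hl]
  · rw [norm_zpow, norm_al hn, one_zpow]

open Classical in
theorem baa_dv {k' K : ℕ} {c₀ : O → ℂ} (h : DvP k' c₀) (hk : k' ≤ K) (l : ℤ) :
    Dv K fun n => (if Prim n then c₀ n else 0) * al n ^ l :=
  ((h.mono hk).dv Prim fun _ h => h).mul (baa_al_le l)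

/-- the final bookkeeping -/
theorem baa_fin {C u T Y δ B s : ℝ} {S L : ℂ} (hY : 0 < Y) (hT : 1 ≤ T) (hu : 1 ≤ u) (huT : u ≤ s * T)
    (hS : ‖S‖ ≤ C * u ^ C * Y ^ (5 / 6 - δ)) (hL : ‖S - L‖ ≤ 1)
    (h1 : |C| * s ^ ⌈C⌉₊ * Y ^ (5 / 6 - δ) * Real.log Y ^ (0 : ℝ) ≤ B)
    (h2 : 1 * Y ^ (0 : ℝ) * Real.log Y ^ (0 : ℝ) ≤ B) : ‖L‖ ≤ 2 * T ^ ⌈C⌉₊ * B := by
  rw [Real.rpow_zero, mul_one] at h1
  rw [Real.rpow_zero, Real.rpow_zero, mul_one, mul_one] at h2
  have hu0 : 0 ≤ u := by linarith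
  have e1 : u ^ C ≤ (s * T) ^ ⌈C⌉₊ := by
    calc u ^ C ≤ u ^ ((⌈C⌉₊ : ℕ) : ℝ) := Real.rpow_le_rpow_of_exponent_le hu (Nat.le_ceil C)
      _ = u ^ ⌈C⌉₊ := Real.rpow_natCast _ _
      _ ≤ _ := pow_le_pow_left₀ hu0 huT _
  have hP : 0 ≤ Y ^ (5 / 6 - δ) := Real.rpow_nonneg hY.le _
  have hTN : 1 ≤ T ^ ⌈C⌉₊ := one_le_pow₀ hT
  have e2 : C * u ^ C ≤ |C| * (s * T) ^ ⌈C⌉₊ :=
    mul_le_mul (le_abs_self C) e1 (Real.rpow_nonneg hu0 _) (abs_nonneg C)
  have e3 : ‖S‖ ≤ T ^ ⌈C⌉₊ * B := by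
    calc ‖S‖ ≤ |C| * (s * T) ^ ⌈C⌉₊ * Y ^ (5 / 6 - δ) := hS.trans (mul_le_mul_of_nonneg_right e2 hP)
      _ = T ^ ⌈C⌉₊ * (|C| * s ^ ⌈C⌉₊ * Y ^ (5 / 6 - δ)) := by rw [mul_pow]; ring
      _ ≤ _ := mul_le_mul_of_nonneg_left h1 (by linarith)
  have e4 : ‖L‖ ≤ ‖S‖ + ‖S - L‖ := by
    have := norm_sub_le S (S - L)
    rwa [sub_sub_cancel] at this
  have e5 : B ≤ T ^ ⌈C⌉₊ * B := le_mul_of_one_le_left (by linarith) hTN
  linarith

theorem baa_a (h : StBa) (l : ℤ) : ∃ η : ℝ, 0 < η ∧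
    ∀ (k k' c : ℕ), ∃ (C : ℝ) (N : ℕ), 0 ≤ C ∧ ∀ᶠ Y : ℝ in atTop, ∀ (a A : ℝ) (α : O → ℂ),
    Hy η k Y a A α → ∀ (c₀ : O → ℂ) (M t T : ℝ), 1 ≤ T → |t| ≤ T → 0 < M → DvP k' c₀ →
    (∀ n, Prim n → c₀ n ≠ 0 → nm n ≤ Y ^ (246 / 1000 : ℝ)) →
    ‖LL l a Y A α (cv c₀ fun n => LN 1 M t (nm n))‖ ≤ C * T ^ N * Bd Y c := by
  classical
  obtain ⟨η, δ, hη, hδ, H⟩ := h l
  refine ⟨min η (1 / 100000), lt_min hη (by norm_num), fun k k' c => ?_⟩
  obtain ⟨C, HC⟩ := H (max k k')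
  refine ⟨2, ⌈C⌉₊, by norm_num, ?_⟩
  filter_upwards [eventually_ge_atTop (2 : ℝ), sum2_LL l k k',
    ev_rpow_le_Bd (|C| * 2 ^ ⌈C⌉₊) 0 (θ := 5 / 6 - δ) (by linarith) c,
    ev_rpow_le_Bd 1 0 (θ := 0) (by norm_num) c] with Y hY h2 e1 e2
  intro a A α hy c₀ M t T hT ht hM hc hs
  have hY1 : 1 ≤ Y := by linarith
  have hy1 := hy.mono hY1 (min_le_left _ _)
  have h3 := h2 a A α (hy.mono hY1 (min_le_right _ _)) c₀ _ hc (baa_dvP_LN k' M t)
  have h4 := HC Y a A M t α (fun n => (if Prim n then c₀ n else 0) * al n ^ l) hY hy1.ha hy1.ha1 hy1.hA hy1.hA' hM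
    hy.supp (dv_mono hy.supp hy.dv (le_max_left _ _)) (baa_dv hc (le_max_right _ _) l) (by
      intro n hn
      have hn' := left_ne_zero_of_mul hn
      by_cases hp : Prim n
      · rw [if_pos hp] at hn'; exact hs n hp hn'
      · rw [if_neg hp] at hn'; exact absurd rfl hn')
  refine baa_fin (s := 2) (by linarith) hT (le_add_of_nonneg_right (abs_nonneg t)) (by linarith) h4 ?_ e1 e2
  convert h3 using 3
  rw [Finset.sum_comm]
  refine Finset.sum_congr rfl fun r hr => ?_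
  rw [Finset.sum_comm]
  refine Finset.sum_congr rfl fun b _ => ?_
  unfold Ps pl
  rw [Finset.mul_sum, Finset.mul_sum]
  refine Finset.sum_congr rfl fun x _ => ?_
  rw [if_pos (mem_pball.1 hr).2, al_mul, mul_zpow, mul_assoc x r b]
  ring

/-- `η := min η_a (1/100000)`; `sum2_LL`; `StBa` with `max k k'`, `c n = 1_Prim(n) c₀ n · al n ^ l` (`DvP.dv`, `Dv.mul`,
`dv_mono`), `(1+|t|)^C ≤ (2T)^N`, `N = ⌈C⌉₊`, `ev_rpow_le_Bd` -/
theorem baL (h : StBa) (l : ℤ) : ∃ η : ℝ, 0 < η ∧ BaL l η := by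
  exact baa_a h l

theorem baa_b (h : StBb) (l : ℤ) : ∃ η : ℝ, 0 < η ∧
    ∀ (k k' c : ℕ), ∃ (C : ℝ) (N : ℕ), 0 ≤ C ∧ ∀ᶠ Y : ℝ in atTop, ∀ (a A : ℝ) (α : O → ℂ),
    Hy η k Y a A α → ∀ (c₀ : O → ℂ) (M₂ M₃ t₂ t₃ T : ℝ), 1 ≤ T → |t₂| ≤ T → |t₃| ≤ T →
    Y ^ (165 / 1000 : ℝ) ≤ M₂ → Y ^ (165 / 1000 : ℝ) ≤ M₃ → DvP k' c₀ →
    ‖LL l a Y A α (cv (cv c₀ fun n => LN 1 M₂ t₂ (nm n)) fun n => LN 1 M₃ t₃ (nm n))‖ ≤ C * T ^ N * Bd Y c := by
  classical
  obtain ⟨η, δ, hη, hδ, H⟩ := h l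
  refine ⟨min η (1 / 100000), lt_min hη (by norm_num), fun k k' c => ?_⟩
  obtain ⟨C, HC⟩ := H (max k k')
  refine ⟨2, ⌈C⌉₊, by norm_num, ?_⟩
  filter_upwards [eventually_ge_atTop (2 : ℝ), sum3_LL l k k',
    ev_rpow_le_Bd (|C| * 3 ^ ⌈C⌉₊) 0 (θ := 5 / 6 - δ) (by linarith) c,
    ev_rpow_le_Bd 1 0 (θ := 0) (by norm_num) c] with Y hY h2 e1 e2
  intro a A α hy c₀ M₂ M₃ t₂ t₃ T hT ht₂ ht₃ hM₂ hM₃ hc
  have hY1 : 1 ≤ Y := by linarith
  have hy1 := hy.mono hY1 (min_le_left _ _)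
  have h3 := h2 a A α (hy.mono hY1 (min_le_right _ _)) c₀ _ _ hc (baa_dvP_LN k' M₂ t₂) (baa_dvP_LN k' M₃ t₃)
  have h4 := HC Y a A M₂ M₃ t₂ t₃ α (fun n => (if Prim n then c₀ n else 0) * al n ^ l) hY hy1.ha hy1.ha1 hy1.hA
    hy1.hA' hM₂ hM₃ hy.supp (dv_mono hy.supp hy.dv (le_max_left _ _)) (baa_dv hc (le_max_right _ _) l)
  refine baa_fin (s := 3) (by linarith) hT (by linarith [abs_nonneg t₂, abs_nonneg t₃]) (by linarith) h4 ?_ e1 e2
  convert h3 using 3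
  rw [Finset.sum_comm]
  refine Finset.sum_congr rfl fun r hr => ?_
  rw [Finset.sum_comm]
  refine Finset.sum_congr rfl fun b _ => ?_
  rw [Finset.sum_comm]
  refine Finset.sum_congr rfl fun d _ => ?_
  unfold Ps pl
  rw [Finset.mul_sum, Finset.mul_sum]
  refine Finset.sum_congr rfl fun x _ => ?_
  rw [if_pos (mem_pball.1 hr).2, al_mul, al_mul, mul_zpow, mul_zpow, show x * r * b * d = x * (r * b * d) by ring]
  ring

/-- the same with `sum3_LL`, `StBb` -/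
theorem bbL (h : StBb) (l : ℤ) : ∃ η : ℝ, 0 < η ∧ BbL l η := by
  exact baa_b h l

/-! ### Part b -/

theorem bab1_cont (x : ℝ) : Continuous fun η : ℝ => LW 1 (Real.exp η) x := by
  unfold LW
  rcases eq_or_ne x 0 with rfl | hx
  · simp only [zero_div]
    exact continuous_const
  · refine Real.continuous_exp.comp (Continuous.neg (Continuous.div_const (Continuous.pow ?_ 2) _))
    exact Continuous.log (continuous_const.div Real.continuous_exp fun η => (Real.exp_pos η).ne')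
      fun η => div_ne_zero hx (Real.exp_pos η).ne'

theorem bab1_le {Y : ℝ} (hY : 1 ≤ Y) : 165 / 1000 * Real.log Y ≤ 2 * Real.log Y := by
  have := Real.log_nonneg hY
  linarith

theorem bab1_sqrt : (2 : ℝ) ≤ √(2 * Real.pi) := by
  refine Real.le_sqrt_of_sq_le ?_
  have := Real.pi_gt_three
  linarith

theorem bab1_full {a x : ℝ} (ha : 0 < a) (hx : 0 < x) :
    (Integrable fun u : ℝ => LW a (Real.exp u) x) ∧ ∫ u : ℝ, LW a (Real.exp u) x = √(2 * Real.pi) * a := by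
  simpa only [one_mul] using integral_LW_centre ha one_pos hx

theorem bab1_tail {Y x : ℝ} (hY : 1 ≤ Y) (h1 : Y ^ (331 / 2000 : ℝ) ≤ x) (h2 : x ≤ Y) :
    1 - Vf Y x ≤ 2 * Real.exp (-((Real.log Y / 2000) ^ 2 / 4)) := by
  have hY0 : 0 < Y := one_pos.trans_le hY
  have hx : 0 < x := (Real.rpow_pos_of_pos hY0 _).trans_le h1
  have hL := Real.log_nonneg hY
  have hl1 : 331 / 2000 * Real.log Y ≤ Real.log x := by
    rw [← Real.log_rpow hY0]
    exact Real.log_le_log (Real.rpow_pos_of_pos hY0 _) h1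
  have hl2 : Real.log x ≤ Real.log Y := Real.log_le_log hx h2
  obtain ⟨i1, e1⟩ := bab1_full one_pos hx
  have h20 : (0 : ℝ) < √2 := by positivity
  obtain ⟨i2, e2⟩ := bab1_full h20 hx
  have hs : 0 < √(2 * Real.pi) := two_pos.trans_le bab1_sqrt
  set s : Set ℝ := Set.Ioc (165 / 1000 * Real.log Y) (2 * Real.log Y) with hs_def
  have hm : MeasurableSet s := measurableSet_Ioc
  have hsplit := integral_add_compl hm i1
  set δ : ℝ := Real.exp (-((Real.log Y / 2000) ^ 2 / 4)) with hδ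
  have hδ0 : 0 < δ := Real.exp_pos _
  have hc : ∫ u in sᶜ, LW 1 (Real.exp u) x ≤ δ * (√(2 * Real.pi) * √2) := by
    calc ∫ u in sᶜ, LW 1 (Real.exp u) x ≤ ∫ u in sᶜ, δ * LW (√2) (Real.exp u) x := by
          refine setIntegral_mono_on i1.integrableOn (i2.const_mul δ).integrableOn hm.compl fun u hu => ?_
          have hΔ : Real.log Y / 2000 ≤ |Real.log (x / Real.exp u)| := by
            rw [Real.log_div hx.ne' (Real.exp_pos u).ne', Real.log_exp]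
            simp only [hs_def, Set.mem_compl_iff, Set.mem_Ioc, not_and_or, not_lt, not_le] at hu
            rcases hu with hu | hu
            · exact le_trans (by linarith) (le_abs_self _)
            · exact le_trans (by linarith) (neg_le_abs _)
          have := norm_LN_tail (a := 1) (by positivity) hΔ 0
          rw [norm_LN_eq_LW, norm_LN_eq_LW, mul_one, one_pow, mul_one] at this
          exact this
      _ ≤ ∫ u, δ * LW (√2) (Real.exp u) x :=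
          setIntegral_le_integral (i2.const_mul δ)
            (Eventually.of_forall fun u => mul_nonneg hδ0.le (LW_pos _ _ _).le)
      _ = δ * (√(2 * Real.pi) * √2) := by rw [integral_const_mul, e2]
  have h22 : √2 ≤ (2 : ℝ) := Real.sqrt_le_iff.2 ⟨by norm_num, by norm_num⟩
  unfold Vf
  rw [intervalIntegral.integral_of_le (bab1_le hY), ← hs_def]
  have e3 : ∫ u in s, LW 1 (Real.exp u) x = √(2 * Real.pi) - ∫ u in sᶜ, LW 1 (Real.exp u) x := by
    rw [e1, mul_one] at hsplit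
    linarith
  rw [e3, mul_sub, inv_mul_cancel₀ hs.ne', sub_sub_cancel, inv_mul_le_iff₀ hs]
  calc _ ≤ δ * (√(2 * Real.pi) * √2) := hc
    _ ≤ δ * (√(2 * Real.pi) * 2) := by gcongr
    _ = _ := by ring

theorem Vf_nonneg {Y : ℝ} (hY : 1 ≤ Y) (x : ℝ) : 0 ≤ Vf Y x := by
  unfold Vf
  exact mul_nonneg (inv_nonneg.2 (Real.sqrt_nonneg _))
    (intervalIntegral.integral_nonneg (bab1_le hY) fun u _ => (LW_pos _ _ _).le)

/-- `integral_LW_centre` with `a = A = 1` -/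
theorem Vf_le_one {Y x : ℝ} (hY : 1 ≤ Y) (hx : 0 < x) : Vf Y x ≤ 1 := by
  obtain ⟨h1, h2⟩ := bab1_full one_pos hx
  have hs : 0 < √(2 * Real.pi) := two_pos.trans_le bab1_sqrt
  unfold Vf
  rw [intervalIntegral.integral_of_le (bab1_le hY), inv_mul_le_iff₀ hs, ← h2]
  exact setIntegral_le_integral h1 (Eventually.of_forall fun u => (LW_pos _ _ _).le)

/-- off the interval `|log x - η| ≥ Δ = (log Y)/2000`, so `LW 1 ≤ exp(-Δ²/4) LW √2` (`norm_LN_tail`) -/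
theorem Vf_large : ∀ᶠ Y : ℝ in atTop, ∀ x : ℝ, Y ^ (331 / 2000 : ℝ) ≤ x → x ≤ Y → 1 - Vf Y x ≤ Y ^ (-11 : ℝ) := by
  filter_upwards [eventually_ge_atTop (1 : ℝ),
    Real.tendsto_log_atTop.eventually_ge_atTop (200000000 : ℝ)] with Y hY hL x h1 h2
  refine (bab1_tail hY h1 h2).trans ?_
  rw [Real.rpow_def_of_pos (one_pos.trans_le hY)]
  have h2e : (2 : ℝ) ≤ Real.exp 1 := by
    have := Real.add_one_le_exp (1 : ℝ)
    linarith
  calc 2 * Real.exp (-((Real.log Y / 2000) ^ 2 / 4))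
      ≤ Real.exp 1 * Real.exp (-((Real.log Y / 2000) ^ 2 / 4)) := by gcongr
    _ = Real.exp (1 + -((Real.log Y / 2000) ^ 2 / 4)) := (Real.exp_add _ _).symm
    _ ≤ _ := by
        rw [Real.exp_le_exp]
        nlinarith

/-- integrate `bv_LW` -/
theorem bv_Vf {Y : ℝ} (hY : 1 ≤ Y) : BV (fun n => (Vf Y n : ℂ)) (4 * Real.log Y) := by
  intro N
  have hab := bab1_le hY
  have hL := Real.log_nonneg hY
  have hs : 0 < √(2 * Real.pi) := two_pos.trans_le bab1_sqrt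
  set c : ℝ := (√(2 * Real.pi))⁻¹ with hc
  have hc0 : 0 ≤ c := inv_nonneg.2 hs.le
  have hc1 : c ≤ 1 / 2 := by
    rw [hc, inv_eq_one_div]
    exact one_div_le_one_div_of_le two_pos bab1_sqrt
  set a : ℝ := 165 / 1000 * Real.log Y with ha
  set b : ℝ := 2 * Real.log Y with hb
  have hi : ∀ x : ℝ, IntervalIntegrable (fun η => LW 1 (Real.exp η) x) volume a b :=
    fun x => (bab1_cont x).intervalIntegrable _ _
  have hd : ∀ x y : ℝ, Continuous fun η => |LW 1 (Real.exp η) x - LW 1 (Real.exp η) y| :=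
    fun x y => ((bab1_cont x).sub (bab1_cont y)).abs
  have h0 : ‖(Vf Y ((0 : ℕ) : ℝ) : ℂ)‖ = c * ∫ η in a..b, LW 1 (Real.exp η) ((0 : ℕ) : ℝ) := by
    rw [Complex.norm_real, Real.norm_of_nonneg (Vf_nonneg hY _)]
    rfl
  have h1 : ∀ n : ℕ, ‖(Vf Y ((n + 1 : ℕ) : ℝ) : ℂ) - (Vf Y (n : ℝ) : ℂ)‖ ≤
      c * ∫ η in a..b, |LW 1 (Real.exp η) ((n + 1 : ℕ) : ℝ) - LW 1 (Real.exp η) (n : ℝ)| := by
    intro n
    rw [bv_norm_sub]
    unfold Vf
    rw [← mul_sub, ← intervalIntegral.integral_sub (hi _) (hi _), abs_mul, abs_of_nonneg hc0]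
    exact mul_le_mul_of_nonneg_left (intervalIntegral.abs_integral_le_integral_abs hab) hc0
  have hsum : ∑ n ∈ Finset.range N,
      ∫ η in a..b, |LW 1 (Real.exp η) ((n + 1 : ℕ) : ℝ) - LW 1 (Real.exp η) (n : ℝ)| =
      ∫ η in a..b, ∑ n ∈ Finset.range N,
        |LW 1 (Real.exp η) ((n + 1 : ℕ) : ℝ) - LW 1 (Real.exp η) (n : ℝ)| :=
    (intervalIntegral.integral_finsetSum fun n _ => (hd _ _).intervalIntegrable _ _).symm
  have hcs : Continuous fun η => ∑ n ∈ Finset.range N,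
      |LW 1 (Real.exp η) ((n + 1 : ℕ) : ℝ) - LW 1 (Real.exp η) (n : ℝ)| :=
    continuous_finsetSum _ fun n _ => hd _ _
  calc ‖(Vf Y ((0 : ℕ) : ℝ) : ℂ)‖ +
        ∑ n ∈ Finset.range N, ‖(Vf Y ((n + 1 : ℕ) : ℝ) : ℂ) - (Vf Y (n : ℝ) : ℂ)‖
      ≤ c * (∫ η in a..b, LW 1 (Real.exp η) ((0 : ℕ) : ℝ)) + ∑ n ∈ Finset.range N,
          c * ∫ η in a..b, |LW 1 (Real.exp η) ((n + 1 : ℕ) : ℝ) - LW 1 (Real.exp η) (n : ℝ)| := by
        rw [h0]
        exact add_le_add le_rfl (Finset.sum_le_sum fun n _ => h1 n)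
    _ = c * ∫ η in a..b, (LW 1 (Real.exp η) ((0 : ℕ) : ℝ) + ∑ n ∈ Finset.range N,
          |LW 1 (Real.exp η) ((n + 1 : ℕ) : ℝ) - LW 1 (Real.exp η) (n : ℝ)|) := by
        rw [← Finset.mul_sum, hsum, ← mul_add,
          intervalIntegral.integral_add (hi _) (hcs.intervalIntegrable _ _)]
    _ ≤ c * ∫ _η in a..b, (4 : ℝ) := by
        refine mul_le_mul_of_nonneg_left (intervalIntegral.integral_mono_on hab
          (((bab1_cont _).add hcs).intervalIntegrable _ _) intervalIntegrable_const fun η _ => ?_) hc0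
        have := bv_LW 1 (Real.exp_pos η) N
        simp only [bv_norm_sub] at this
        rwa [Complex.norm_real, Real.norm_of_nonneg (LW_pos _ _ _).le] at this
    _ = c * ((b - a) * 4) := by rw [intervalIntegral.integral_const, smul_eq_mul]
    _ ≤ 1 / 2 * ((b - a) * 4) := by
        have : 0 ≤ b - a := sub_nonneg.2 hab
        gcongr
    _ ≤ 4 * Real.log Y := by
        rw [ha, hb]
        linarith

theorem bab2_rpow {Y : ℝ} (hY : 1 < Y) : Y ^ (1 / Real.log Y) ≤ 3 := by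
  rw [Real.rpow_def_of_pos (by linarith), mul_one_div_cancel (Real.log_pos hY).ne']
  linarith [Real.exp_one_lt_d9]

theorem norm_pw_le {Y T : ℝ} {z : ℂ} (hY : 1 < Y) (hz : Az Y T z) (n : ℕ) : ‖pw Y z n‖ ≤ 3 := by
  unfold pw
  split_ifs with h
  · rw [Complex.norm_natCast_cpow_of_pos h.1]
    calc (n : ℝ) ^ z.re ≤ Y ^ z.re := Real.rpow_le_rpow (Nat.cast_nonneg n) h.2 hz.1
      _ ≤ Y ^ (1 / Real.log Y) := Real.rpow_le_rpow_of_exponent_le hY.le hz.2.1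
      _ ≤ 3 := bab2_rpow hY
  · simp

/-- `bv_cpow'` with `r = 1 / log Y`, `Y^r = e` -/
theorem bv_pw {Y T : ℝ} {z : ℂ} (hY : 1 ≤ Real.log Y) (hY' : 1 ≤ Y) (hT : 1 ≤ T) (hz : Az Y T z) :
    BV (pw Y z) (12 * T * Real.log Y) := by
  have hY1 : 1 < Y := lt_of_le_of_ne hY' fun h => by rw [← h, Real.log_one] at hY; linarith
  have hL : 0 < Real.log Y := by linarith
  have h := bv_cpow' hY' (r := 1 / Real.log Y) (by positivity) hz.2.1
  have e : pw Y z = fun n : ℕ => if 1 ≤ n ∧ (n : ℝ) ≤ Y then (n : ℂ) ^ z else 0 := by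
    funext n
    unfold pw
    congr
  rw [e]
  refine h.mono ?_
  have h1 : ‖z‖ ≤ 1 / Real.log Y + T := by
    refine (Complex.norm_le_abs_re_add_abs_im z).trans (add_le_add ?_ hz.2.2)
    rw [abs_of_nonneg hz.1]
    exact hz.2.1
  have h2 : ‖z‖ * Real.log Y ≤ 1 + T * Real.log Y := by
    have := mul_le_mul_of_nonneg_right h1 hL.le
    rwa [add_mul, one_div_mul_cancel hL.ne'] at this
  have h3 : 1 ≤ T * Real.log Y := one_le_mul_of_one_le_of_one_le hT hY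
  calc _ ≤ (4 * (T * Real.log Y)) * 3 :=
        mul_le_mul (by linarith) (bab2_rpow hY1) (by positivity) (by positivity)
    _ = _ := by ring

theorem bab2_four {Y T K : ℝ} {ψ a b c d : ℕ → ℂ} (ha : Wt K a ∧ Kd Y T a) (hb : Wt K b ∧ Kd Y T b)
    (hc : Wt K c ∧ Kd Y T c) (hd : Wt K d ∧ Kd Y T d) (h : ∀ n, ψ n = a n + b n + c n + d n) :
    Dec Y T K ψ := by
  refine ⟨![a, b, c, d], fun j => ?_, fun n => by rw [h, Fin.sum_univ_four]; rfl⟩
  fin_cases j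
  exacts [ha, hb, hc, hd]

theorem dec_dl {Y T K : ℝ} (hY : 1 ≤ Y) (hK : 2 ≤ K) : Dec Y T K dl := by
  have h0 : Wt K (fun _ => 0) ∧ Kd Y T (fun _ => 0) :=
    ⟨⟨(bv_const 0).mono (by rw [norm_zero]; linarith), by simp, by simp⟩,
      Or.inl fun n hn => absurd rfl hn⟩
  refine bab2_four (a := dl) ⟨⟨BV.mono ?_ hK, fun n => ?_, by simp [dl]⟩, Or.inl fun n hn => ?_⟩
    h0 h0 h0 (by simp)
  · convert bvb_Ioc (a := 0) (b := 1) zero_le_one using 2 with n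
    unfold dl
    congr 1
    simp only [Nat.cast_pos, Nat.cast_le_one, eq_iff_iff]
    omega
  · unfold dl
    split_ifs <;> simp
  · have : n = 1 := by
      by_contra h
      exact hn (by simp [dl, h])
    rw [this, Nat.cast_one]
    exact Real.one_le_rpow hY (by norm_num)

theorem bab2_wt {Y T K : ℝ} {z : ℂ} (hY : 1 < Y) (hz : Az Y T z) {ψ u : ℕ → ℂ} (hψ : BV ψ K)
    (e : ∀ n, ψ n = pw Y z n * u n) (hu : ∀ n, 1 ≤ n → ‖u n‖ ≤ 1) : Wt K ψ := by
  refine ⟨hψ, fun n => ?_, ?_⟩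
  · rw [e, norm_mul]
    rcases Nat.eq_zero_or_pos n with rfl | hn
    · simp [pw]
    · have := norm_pw_le hY hz n
      calc _ ≤ (3 : ℝ) * 1 := mul_le_mul this (hu n hn) (norm_nonneg _) (by norm_num)
        _ ≤ 4 := by norm_num
  · rw [e, norm_mul]
    refine mul_le_one₀ ?_ (norm_nonneg _) (hu 1 le_rfl)
    simp [pw, hY.le]

/-- `pw = pw (1-V) 1[n ≤ Y^0.001] + pw (1-V) 1[Y^0.001 < n ≤ Y^0.1655] + pw (1-V) 1[Y^0.1655 < n] + V pw` -/
theorem dec_pw : ∀ᶠ Y : ℝ in atTop, ∀ (T : ℝ) (z : ℂ), 1 ≤ T → Az Y T z →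
    Dec Y T (T * Real.log Y ^ 3) (pw Y z) := by
  filter_upwards [Vf_large, eventually_ge_atTop 3, Real.tendsto_log_atTop.eventually_ge_atTop 960]
    with Y hV hY3 hL T z hT hz
  have hY : 1 < Y := by linarith
  have hY0 : 0 < Y := by linarith
  have hp := bv_pw (by linarith) hY.le hT hz
  have hv := bv_Vf hY.le
  set L := Real.log Y with hLdef
  have hV0 : ∀ n : ℕ, 0 ≤ Vf Y n := fun n => Vf_nonneg hY.le _
  have hV1 : ∀ n : ℕ, 1 ≤ n → Vf Y n ≤ 1 := fun n hn => Vf_le_one hY.le (Nat.cast_pos.2 hn)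
  have hn1 : ∀ n : ℕ, 1 ≤ n → ‖(1 : ℂ) + -1 * (Vf Y n : ℂ)‖ = 1 - Vf Y n := fun n hn => by
    have : (1 : ℂ) + -1 * (Vf Y n : ℂ) = ((1 - Vf Y n : ℝ) : ℂ) := by push_cast; ring
    rw [this, Complex.norm_real, Real.norm_of_nonneg (sub_nonneg.2 (hV1 n hn))]
  have hw : BV (fun n => pw Y z n * (1 + -1 * (Vf Y n : ℂ))) (120 * (T * L ^ 2)) := by
    refine (hp.mul ((bv_const 1).add (hv.const_mul (-1)))).mono ?_
    rw [norm_neg, norm_one]
    calc 2 * (12 * T * L) * (1 + 1 * (4 * L)) ≤ 2 * (12 * T * L) * (5 * L) := by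
          gcongr
          linarith
      _ = _ := by ring
  have hK : 960 * (T * L ^ 2) ≤ T * L ^ 3 :=
    calc _ ≤ L * (T * L ^ 2) := by gcongr
      _ = _ := by ring
  have hTL : 0 ≤ T * L ^ 2 := by positivity
  have key : ∀ (P : ℕ → Prop) [DecidablePred P], BV (fun n => if P n then 1 else 0) 4 →
      Wt (T * L ^ 3) fun n => pw Y z n * (1 + -1 * (Vf Y n : ℂ)) * if P n then 1 else 0 := by
    intro P _ hP
    refine bab2_wt hY hz ((hw.mul hP).mono (by linarith)) (fun n => mul_assoc _ _ _) fun n hn => ?_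
    rw [norm_mul, hn1 n hn]
    refine mul_le_one₀ (by linarith [hV0 n]) (norm_nonneg _) ?_
    split_ifs <;> simp
  have hab : Y ^ (1 / 1000 : ℝ) ≤ Y ^ (331 / 2000 : ℝ) :=
    Real.rpow_le_rpow_of_exponent_le hY.le (by norm_num)
  refine bab2_four (d := fun n => (Vf Y n : ℂ) * pw Y z n)
    ⟨key _ ((bv_le (Y ^ (1 / 1000 : ℝ))).mono (by norm_num)), Or.inl fun n hn => ?_⟩
    ⟨key _ (bv_Ioc (Y ^ (1 / 1000 : ℝ)) (Y ^ (331 / 2000 : ℝ))), Or.inr (Or.inl fun n hn => ?_)⟩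
    ⟨key _ ((bv_gt (Y ^ (331 / 2000 : ℝ))).mono (by norm_num)), Or.inr (Or.inr (Or.inl fun n => ?_))⟩
    ⟨bab2_wt hY hz ((hv.mul hp).mono (by nlinarith)) (fun n => mul_comm _ _) fun n hn => ?_,
      Or.inr (Or.inr (Or.inr ⟨z, hz, fun n => rfl⟩))⟩ fun n => ?_
  · by_contra h
    exact hn (by simp only [if_neg h, mul_zero])
  · by_contra h
    exact hn (by simp only [if_neg h, mul_zero])
  · show ‖pw Y z n * (1 + -1 * (Vf Y n : ℂ)) * _‖ ≤ _
    split_ifs with h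
    · by_cases h' : 1 ≤ n ∧ (n : ℝ) ≤ Y
      · rw [mul_one, norm_mul, hn1 n h'.1]
        calc _ ≤ Y * Y ^ (-11 : ℝ) :=
              mul_le_mul ((norm_pw_le hY hz n).trans hY3) (hV n h.le h'.2)
                (sub_nonneg.2 (hV1 n h'.1)) hY0.le
          _ = _ := by rw [mul_comm, ← Real.rpow_add_one hY0.ne']; norm_num
      · rw [pw, if_neg h', zero_mul, zero_mul, norm_zero]
        positivity
    · rw [mul_zero, norm_zero]
      positivity
  · rw [Complex.norm_real, Real.norm_of_nonneg (hV0 n)]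
    exact hV1 n hn
  · by_cases h1 : (n : ℝ) ≤ Y ^ (1 / 1000 : ℝ)
    · rw [if_pos h1, if_neg fun h => h.1.not_ge h1, if_neg (h1.trans hab).not_gt]
      ring
    · by_cases h2 : (n : ℝ) ≤ Y ^ (331 / 2000 : ℝ)
      · rw [if_neg h1, if_pos ⟨not_le.1 h1, h2⟩, if_neg h2.not_gt]
        ring
      · rw [if_neg h1, if_neg fun h => h2 h.2, if_pos (not_le.1 h2)]
        ring

theorem bab1_contLN (r t x : ℝ) (hx : 0 < x) :
    Continuous fun η : ℝ => LN 1 (Real.exp η * Real.exp r) t x := by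
  have hl : Continuous fun η : ℝ => Real.log (x / (Real.exp η * Real.exp r)) :=
    Continuous.log (continuous_const.div (Real.continuous_exp.mul continuous_const) fun η => by positivity)
      fun η => by positivity
  unfold LN
  fun_prop

theorem bab1_contF (z : ℂ) : Continuous fun η : ℝ => ((Real.exp η : ℝ) : ℂ) ^ z := by
  have : (fun η : ℝ => ((Real.exp η : ℝ) : ℂ) ^ z) = fun η : ℝ => Complex.exp (η * z) := by
    funext η
    rw [Complex.cpow_def_of_ne_zero (by exact_mod_cast (Real.exp_pos η).ne'),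
      ← Complex.ofReal_log (Real.exp_pos η).le, Real.log_exp]
  rw [this]
  fun_prop

/-- `V(x) x^z = (2π)^(-1/2) ∫ e^(ηz) exp(…) LN 1 (e^(η + Re z)) (Im z) x dη` (`LN_mul_cpow` with `t = 0`), the factor
has norm `≤ e^2 · e^(1/2) ≤ 20`; `intervalIntegral.integral_finset_sum`, `norm_integral_le_of_norm_le_const` -/
theorem lg_bound {X Y T E : ℝ} {Λ : (O → ℂ) → ℂ} (hΛ : FF X Λ) (hX : X ≤ Y) (hY : 1 ≤ Real.log Y) (hY' : 1 ≤ Y)
    {ψ : ℕ → ℂ} (hψ : Lg Y T ψ)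
    (h : ∀ M t : ℝ, Y ^ (165 / 1000 : ℝ) ≤ M → |t| ≤ T → ‖Λ fun n => LN 1 M t (nm n)‖ ≤ E) :
    ‖Λ (nw ψ)‖ ≤ 20 * Real.log Y * E := by
  obtain ⟨c₀, hc₀⟩ := hΛ
  obtain ⟨z, ⟨hz0, hz1, hzT⟩, hψ⟩ := hψ
  have hY0 : 0 < Y := one_pos.trans_le hY'
  have hab := bab1_le hY'
  have hL0 : 0 < Real.log Y := one_pos.trans_le hY
  have hE : 0 ≤ E := (norm_nonneg _).trans (h _ z.im le_rfl hzT)
  have hs : 0 < √(2 * Real.pi) := two_pos.trans_le bab1_sqrt
  set c : ℝ := (√(2 * Real.pi))⁻¹ with hc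
  have hc0 : 0 ≤ c := inv_nonneg.2 hs.le
  have hc1 : c ≤ 1 / 2 := by
    rw [hc, inv_eq_one_div]
    exact one_div_le_one_div_of_le two_pos bab1_sqrt
  set a : ℝ := 165 / 1000 * Real.log Y with ha
  set b : ℝ := 2 * Real.log Y with hb
  set w : ℂ := Complex.exp ((((1 : ℝ) ^ 2 * z.re ^ 2 / 2 : ℝ) : ℂ) +
    Complex.I * (((1 : ℝ) ^ 2 * z.re * (0 + z.im) : ℝ) : ℂ)) with hw
  set r : ℝ := (1 : ℝ) ^ 2 * z.re with hr
  have hpos : ∀ n ∈ sball X, 1 ≤ nN n ∧ nm n ≤ Y := by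
    intro n hn
    classical
    unfold sball at hn
    rw [Finset.mem_filter, mem_ball] at hn
    refine ⟨?_, hn.1.trans hX⟩
    have := one_le_nm hn.2.2.ne_zero
    unfold nm at this
    exact_mod_cast this
  have hterm : ∀ n ∈ sball X, c₀ n * nw ψ n = (c : ℂ) * ∫ η in a..b,
      ((Real.exp η : ℝ) : ℂ) ^ z * w * (c₀ n * LN 1 (Real.exp η * Real.exp r) (0 + z.im) (nm n)) := by
    intro n hn
    obtain ⟨h1, h2⟩ := hpos n hn
    have hn0 : 0 < nm n := by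
      unfold nm
      exact_mod_cast h1
    have hp : pw Y z (nN n) = ((nm n : ℝ) : ℂ) ^ z := by
      unfold pw
      rw [if_pos ⟨h1, h2⟩]
      unfold nm
      rw [Complex.ofReal_natCast]
    have hint : ∀ η : ℝ,
        ((Real.exp η : ℝ) : ℂ) ^ z * w * (c₀ n * LN 1 (Real.exp η * Real.exp r) (0 + z.im) (nm n)) =
        (c₀ n * ((nm n : ℝ) : ℂ) ^ z) * (LW 1 (Real.exp η) (nm n) : ℂ) := by
      intro η
      have := LN_mul_cpow one_pos (Real.exp_pos η) hn0 0 z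
      rw [LN_eq_LW] at this
      linear_combination (-c₀ n) * this
    simp only [hint]
    rw [intervalIntegral.integral_const_mul, intervalIntegral.integral_ofReal]
    unfold nw
    have hV : Vf Y (nN n : ℝ) = c * ∫ η in a..b, LW 1 (Real.exp η) (nm n) := rfl
    rw [hψ, hp, hV]
    push_cast
    ring
  have hcont : ∀ n ∈ sball X, Continuous fun η : ℝ =>
      ((Real.exp η : ℝ) : ℂ) ^ z * w * (c₀ n * LN 1 (Real.exp η * Real.exp r) (0 + z.im) (nm n)) := by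
    intro n hn
    have hn0 : 0 < nm n := by
      unfold nm
      exact_mod_cast (hpos n hn).1
    exact ((bab1_contF z).mul continuous_const).mul (continuous_const.mul (bab1_contLN _ _ _ hn0))
  have hmain : Λ (nw ψ) = (c : ℂ) * ∫ η in a..b, ((Real.exp η : ℝ) : ℂ) ^ z * w *
      Λ fun n => LN 1 (Real.exp η * Real.exp r) (0 + z.im) (nm n) := by
    rw [hc₀, Finset.sum_congr rfl hterm, ← Finset.mul_sum,
      ← intervalIntegral.integral_finsetSum fun n hn => (hcont n hn).intervalIntegrable _ _]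
    simp only [hc₀, Finset.mul_sum]
  have hz2 : z.re ≤ 1 := hz1.trans (div_le_self zero_le_one hY)
  have hbd : ∀ η ∈ Set.uIoc a b, ‖((Real.exp η : ℝ) : ℂ) ^ z * w *
      Λ fun n => LN 1 (Real.exp η * Real.exp r) (0 + z.im) (nm n)‖ ≤ 20 * E := by
    intro η hη
    rw [Set.uIoc_of_le hab] at hη
    rw [norm_mul, norm_mul]
    refine mul_le_mul ?_ (h _ _ ?_ (by rwa [zero_add])) (norm_nonneg _) (by norm_num)
    · rw [Complex.norm_cpow_eq_rpow_re_of_pos (Real.exp_pos η), hw, Complex.norm_exp, ← Real.exp_mul,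
        ← Real.exp_add]
      have h1 : η * z.re ≤ 2 := by
        calc η * z.re ≤ 2 * Real.log Y * z.re := mul_le_mul_of_nonneg_right hη.2 hz0
          _ ≤ 2 * Real.log Y * (1 / Real.log Y) := by gcongr
          _ = 2 := by field_simp
      have h2 : ((((1 : ℝ) ^ 2 * z.re ^ 2 / 2 : ℝ) : ℂ) +
          Complex.I * ((r * (0 + z.im) : ℝ) : ℂ)).re ≤ 1 / 2 := by
        simp only [Complex.add_re, Complex.ofReal_re, Complex.mul_re, Complex.I_re, Complex.I_im,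
          Complex.ofReal_im]
        nlinarith
      have h3 : Real.exp 1 ≤ 3 := Real.exp_one_lt_three.le
      have h4 : Real.exp (1 / 2) ≤ 2 := by
        refine (pow_le_pow_iff_left₀ (Real.exp_pos _).le (by norm_num) two_ne_zero).1 ?_
        rw [← Real.exp_nat_mul]
        norm_num
        linarith
      calc Real.exp _ ≤ Real.exp (1 + 1 + 1 / 2) := Real.exp_le_exp.2 (by linarith)
        _ = Real.exp 1 * Real.exp 1 * Real.exp (1 / 2) := by rw [Real.exp_add, Real.exp_add]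
        _ ≤ 3 * 3 * 2 := by gcongr
        _ ≤ 20 := by norm_num
    · rw [Real.rpow_def_of_pos hY0, ← Real.exp_add, Real.exp_le_exp]
      have := hη.1
      rw [hr]
      nlinarith
  rw [hmain, norm_mul, Complex.norm_real, Real.norm_of_nonneg hc0]
  have hI := intervalIntegral.norm_integral_le_of_norm_le_const hbd
  rw [abs_of_nonneg (sub_nonneg.2 hab)] at hI
  calc _ ≤ 1 / 2 * (20 * E * (b - a)) := mul_le_mul hc1 hI (norm_nonneg _) (by norm_num)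
    _ ≤ 20 * Real.log Y * E := by
        rw [ha, hb]
        nlinarith

end Crest.Agent.R12.BH
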