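import Crest.Agent.R12.BH.Cv

/-! Row 12, block BH: the Shapley identity.  Prefix for helper lemmas: `sha_`. -/

set_option autoImplicit false

namespace Crest.Agent.R12.BH

open Crest.Agent.R17 Filter

theorem shw_nonneg (i j : ℕ) : 0 ≤ shw i j := by unfold shw; positivity

theorem shw_le_one (i j : ℕ) : shw i j ≤ 1 := by
  unfold shw
  rw [div_le_one (by positivity)]
  have h1 : i.factorial * j.factorial ≤ (i + j).factorial :=
    Nat.le_of_dvd (Nat.factorial_pos _) (Nat.factorial_mul_factorial_dvd_factorial_add i j)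
  have h2 : (i + j).factorial ≤ (i + j + 1).factorial := Nat.factorial_le (Nat.le_succ _)
  exact_mod_cast h1.trans h2

theorem sha_succ_left (i j : ℕ) :
    ((i + 1 : ℕ) : ℝ) * shw i j = ((i + 1).factorial * j.factorial : ℝ) / (i + j + 1).factorial := by
  unfold shw
  rw [Nat.factorial_succ i]
  push_cast
  ring

theorem sha_succ_right (i j : ℕ) :
    ((j + 1 : ℕ) : ℝ) * shw i j = (i.factorial * (j + 1).factorial : ℝ) / (i + j + 1).factorial := by
  unfold shw
  rw [Nat.factorial_succ j]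
  push_cast
  ring

theorem sha_coef {s t : ℕ} (h : t ≤ s) :
    (t : ℝ) * shw (t - 1) (s - t) - ((s - t : ℕ) : ℝ) * shw t (s - t - 1) =
      (if t = s then 1 else 0) - if t = 0 then 1 else 0 := by
  obtain ⟨u, rfl⟩ := Nat.exists_eq_add_of_le h
  rw [Nat.add_sub_cancel_left]
  rcases t with _ | t <;> rcases u with _ | u
  · simp
  · rw [Nat.add_sub_cancel, sha_succ_right, if_neg (by omega), if_pos rfl]
    have : ((0 + u + 1).factorial : ℝ) ≠ 0 := by positivity
    rw [zero_add] at this ⊢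
    simp [this]
  · rw [Nat.add_sub_cancel, sha_succ_left, if_pos (by omega), if_neg (by omega)]
    have : ((t + 1).factorial : ℝ) ≠ 0 := by positivity
    simp [this]
  · rw [Nat.add_sub_cancel, Nat.add_sub_cancel, sha_succ_left, sha_succ_right, if_neg (by omega),
      if_neg (by omega), show t + (u + 1) + 1 = t + 1 + u + 1 by ring]
    ring

/-- Efficiency of the Shapley value.  With `s = |S|`, `t = |T|`, `c t = t! (s-t)! / s!`: the first half is
`∑_{T ≠ ∅} c |T| Φ T` (`t · shw (t-1) (s-t) = c t`), the second half, reindexed by `T ↦ T.erase p`, is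
`∑_{T ≠ S} c |T| Φ T` (`(s-t) · shw t (s-t-1) = c t`), and `c 0 = c s = 1`. -/
theorem shap_set {ι : Type*} [DecidableEq ι] (S : Finset ι) (Φ : Finset ι → ℂ) :
    ∑ T ∈ S.powerset, (shw (T.card - 1) (S.card - T.card) : ℂ) * ∑ p ∈ T, (Φ T - Φ (T.erase p)) = Φ S - Φ ∅ := by
  have h2 : ∑ T ∈ S.powerset, ∑ p ∈ T, (shw (T.card - 1) (S.card - T.card) : ℂ) * Φ (T.erase p) =
      ∑ U ∈ S.powerset, ∑ _p ∈ S \ U, (shw U.card (S.card - U.card - 1) : ℂ) * Φ U := by
    rw [Finset.sum_sigma', Finset.sum_sigma']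
    refine Finset.sum_nbij' (fun x => ⟨x.1.erase x.2, x.2⟩) (fun x => ⟨insert x.2 x.1, x.2⟩)
      ?_ ?_ ?_ ?_ ?_
    · rintro ⟨T, p⟩ h
      simp only [Finset.mem_sigma, Finset.mem_powerset, Finset.mem_sdiff] at h ⊢
      exact ⟨(Finset.erase_subset _ _).trans h.1, h.1 h.2, Finset.notMem_erase _ _⟩
    · rintro ⟨U, p⟩ h
      simp only [Finset.mem_sigma, Finset.mem_powerset, Finset.mem_sdiff] at h ⊢
      exact ⟨Finset.insert_subset h.2.1 h.1, Finset.mem_insert_self _ _⟩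
    · rintro ⟨T, p⟩ h
      simp only [Finset.mem_sigma, Finset.mem_powerset] at h
      simp only [Finset.insert_erase h.2]
    · rintro ⟨U, p⟩ h
      simp only [Finset.mem_sigma, Finset.mem_powerset, Finset.mem_sdiff] at h
      simp only [Finset.erase_insert h.2.2]
    · rintro ⟨T, p⟩ h
      simp only [Finset.mem_sigma, Finset.mem_powerset] at h
      have h1 : 1 ≤ T.card := Finset.card_pos.2 ⟨p, h.2⟩
      have h3 : T.card ≤ S.card := Finset.card_le_card h.1
      simp only [Finset.card_erase_of_mem h.2]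
      rw [show S.card - (T.card - 1) - 1 = S.card - T.card by omega]
  have h3 : ∀ T ∈ S.powerset,
      (shw (T.card - 1) (S.card - T.card) : ℂ) * ∑ p ∈ T, (Φ T - Φ (T.erase p)) =
        ((T.card * shw (T.card - 1) (S.card - T.card) : ℝ) : ℂ) * Φ T -
          ∑ p ∈ T, (shw (T.card - 1) (S.card - T.card) : ℂ) * Φ (T.erase p) := by
    intro T _
    rw [Finset.sum_sub_distrib, Finset.sum_const, nsmul_eq_mul, mul_sub, Finset.mul_sum]
    push_cast
    ring
  rw [Finset.sum_congr rfl h3, Finset.sum_sub_distrib, h2, ← Finset.sum_sub_distrib]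
  have h4 : ∀ T ∈ S.powerset,
      ((T.card * shw (T.card - 1) (S.card - T.card) : ℝ) : ℂ) * Φ T -
        ∑ _p ∈ S \ T, (shw T.card (S.card - T.card - 1) : ℂ) * Φ T =
      (if T = S then Φ T else 0) - if T = ∅ then Φ T else 0 := by
    intro T hT
    have hT' := Finset.mem_powerset.1 hT
    have hc := sha_coef (Finset.card_le_card hT')
    have hc' := congrArg (fun x : ℝ => (x : ℂ) * Φ T) hc
    rw [Finset.sum_const, nsmul_eq_mul, Finset.card_sdiff_of_subset hT']
    have e1 : T.card = S.card ↔ T = S :=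
      ⟨fun h => Finset.eq_of_subset_of_card_le hT' h.ge, fun h => by rw [h]⟩
    simp only [e1, Finset.card_eq_zero] at hc'
    push_cast at hc' ⊢
    rw [← mul_assoc, ← sub_mul, hc']
    split_ifs <;> simp
  rw [Finset.sum_congr rfl h4, Finset.sum_sub_distrib, Finset.sum_ite_eq', Finset.sum_ite_eq',
    if_pos (Finset.mem_powerset_self S), if_pos (Finset.empty_mem_powerset S)]

/-- factorisations of a squarefree element (`sum_pdiv_sqfree`, or induction with `cv_prime_mul`) -/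
theorem cv_sqfree (f g : O → ℂ) {d : O} (hd : PSq d) [DecidableEq O] :
    cv f g d = ∑ T ∈ (pfs d).powerset, f (∏ p ∈ T, p) * g (∏ p ∈ pfs d \ T, p) := by
  have hS : ∀ T ∈ (pfs d).powerset, ∀ p ∈ T, Prime p ∧ Prim p := fun T hT p hp =>
    have := (mem_pfs hd.ne_zero).1 (Finset.mem_powerset.1 hT hp)
    ⟨this.1, this.2.1⟩
  have hP : ∀ T ∈ (pfs d).powerset, (∏ p ∈ T, p) * ∏ p ∈ pfs d \ T, p = d := fun T hT => by
    rw [mul_comm, Finset.prod_sdiff (Finset.mem_powerset.1 hT)]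
    exact hd.1.rad_eq hd.2
  symm
  refine Finset.sum_bij (fun T _ => (∏ p ∈ T, p, ∏ p ∈ pfs d \ T, p)) (fun T hT => ?_)
    (fun T hT T' hT' h => ?_) (fun x hx => ?_) fun _ _ => rfl
  · exact mem_anti.2 ⟨prim_prod fun p hp => (hS T hT p hp).2, prim_prod fun p hp =>
      ((mem_pfs hd.ne_zero).1 (Finset.mem_sdiff.1 hp).1).2.1, hP T hT⟩
  · rw [← pfs_prod (hS T hT), ← pfs_prod (hS T' hT')]
    exact congrArg pfs (Prod.ext_iff.1 h).1
  · obtain ⟨h₁, -, h₃⟩ := mem_anti.1 hx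
    have hdv : x.1 ∣ d := h₃ ▸ dvd_mul_right _ _
    have hT : pfs x.1 ∈ (pfs d).powerset := Finset.mem_powerset.2 fun p hp => by
      obtain ⟨a, b, c⟩ := (mem_pfs h₁.ne_zero).1 hp
      exact (mem_pfs hd.ne_zero).2 ⟨a, b, c.trans hdv⟩
    have e : ∏ p ∈ pfs x.1, p = x.1 := h₁.rad_eq (hd.2.squarefree_of_dvd hdv)
    refine ⟨pfs x.1, hT, Prod.ext e (mul_left_cancel₀ h₁.ne_zero ?_)⟩
    have h₄ := hP _ hT
    rw [e] at h₄
    exact h₄.trans h₃.symm

open Classical in
/-- `shap_set` with `Φ T = 1[D < N (∏ T)]`, multiplied by `mf φ d` -/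
theorem shap {D : ℝ} (hD : 1 ≤ D) (φ : ℕ → ℂ) {d : O} (hd : PSq d) {I : ℕ} (hI : (pfs d).card ≤ I) :
    (if D < nm d then mf φ d else 0) = ∑ i ∈ Finset.range I, cv (shH D φ i) (shN φ i) d := by
  have hS : ∀ p ∈ pfs d, Prime p ∧ Prim p := fun p hp =>
    have := (mem_pfs hd.ne_zero).1 hp
    ⟨this.1, this.2.1⟩
  have h := shap_set (pfs d) fun T => if D < nm (∏ p ∈ T, p) then 1 else 0
  have e : ∏ p ∈ pfs d, p = d := hd.1.rad_eq hd.2
  rw [e, Finset.prod_empty, nm_one, if_neg (not_lt.2 hD), sub_zero] at h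
  rw [← mul_boole, ← h, Finset.mul_sum]
  simp only [cv_sqfree _ _ hd]
  rw [Finset.sum_comm]
  refine Finset.sum_congr rfl fun T hT => ?_
  have hT' := Finset.mem_powerset.1 hT
  have e₁ : pfs (∏ p ∈ T, p) = T := pfs_prod fun p hp => hS p (hT' hp)
  have e₂ : pfs (∏ p ∈ pfs d \ T, p) = pfs d \ T := pfs_prod fun p hp => hS p (Finset.mem_sdiff.1 hp).1
  have e₃ : mf φ d = mf φ (∏ p ∈ T, p) * mf φ (∏ p ∈ pfs d \ T, p) := by
    rw [mf, mf, mf, e₁, e₂, mul_comm, Finset.prod_sdiff hT']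
  have e₄ : ∑ p ∈ T, ((if D < nm (∏ p ∈ T, p) then (1 : ℂ) else 0) -
      if D < nm (∏ r ∈ T.erase p, r) then 1 else 0) = if D < nm (∏ p ∈ T, p) then
        (((T.filter fun p => nm (∏ p ∈ T, p) ≤ D * nm p).card : ℕ) : ℂ) else 0 := by
    rw [Finset.card_filter]
    push_cast
    rw [Finset.ite_sum_zero]
    refine Finset.sum_congr rfl fun p hp => ?_
    have h1 := one_le_nm (hS p (hT' hp)).1.ne_zero
    have h2 := nm_nonneg (∏ r ∈ T.erase p, r)
    rw [← Finset.prod_erase_mul T _ hp, nm_mul]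
    by_cases h3 : D < nm (∏ r ∈ T.erase p, r)
    · rw [if_pos h3, if_pos (by nlinarith), if_pos (by nlinarith), if_neg (by nlinarith), sub_self]
    · rw [if_neg h3, sub_zero, if_pos (mul_le_mul_of_nonneg_right (not_lt.1 h3) (by linarith))]
  rw [e₄, e₃]
  simp only [shH, shN, e₁, e₂, Finset.card_sdiff_of_subset hT']
  rcases Nat.eq_zero_or_pos T.card with h0 | h0
  · obtain rfl := Finset.card_eq_zero.1 h0
    simp
  · rw [Finset.sum_eq_single (T.card - 1)]
    · simp only [Nat.sub_add_cancel h0, true_and]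
      split_ifs
      · ring
      · simp
    · intro i _ hi
      rw [if_neg fun h' => hi (by omega), zero_mul]
    · intro hi
      have := Finset.card_le_card hT'
      exact absurd (Finset.mem_range.2 (by omega)) hi

/-- `2^ω(d) ≤ N d` -/
theorem card_pfs_le_log {d : O} (hd : d ≠ 0) {Y : ℝ} (h : nm d ≤ Y) : ((pfs d).card : ℝ) ≤ 2 * Real.log Y := by
  have h1 : (2 : ℝ) ^ (pfs d).card ≤ nm (rad d) := by
    unfold rad
    rw [nm_prod, ← Finset.prod_const]
    exact Finset.prod_le_prod (fun _ _ => by norm_num) fun p hp => two_le_nm (pra_of_mem_pfs hp).1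
  have h2 : (2 : ℝ) ^ (pfs d).card ≤ Y := h1.trans ((nm_le_of_dvd (rad_dvd d) hd).trans h)
  have h3 := Real.log_le_log (by positivity) h2
  rw [Real.log_pow] at h3
  have h4 : (1 / 2 : ℝ) ≤ Real.log 2 := by linarith [Real.log_two_gt_d9]
  have h5 : (0 : ℝ) ≤ (pfs d).card := Nat.cast_nonneg _
  nlinarith

theorem dvP_shH {k : ℕ} {φ : ℕ → ℂ} (h : DvP k (mf φ)) (D : ℝ) (i : ℕ) : DvP (k + 1) (shH D φ i) := by
  intro n hn
  unfold shH
  split_ifs
  · rw [norm_mul, Complex.norm_natCast, pow_succ]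
    refine mul_le_mul (h n hn) ?_ (Nat.cast_nonneg _) (pow_nonneg (dn_nonneg n) _)
    exact le_trans (by exact_mod_cast Finset.card_filter_le _ _) (card_pfs_le_dn n)
  · rw [norm_zero]
    exact pow_nonneg (dn_nonneg n) _

theorem supp_shH {D Z : ℝ} (hD : 0 ≤ D) {φ : ℕ → ℂ} (h : ∀ n, φ n ≠ 0 → (n : ℝ) ≤ Z) {i : ℕ} {r : O}
    (hr : shH D φ i r ≠ 0) : D < nm r ∧ nm r ≤ D * Z := by
  unfold shH at hr
  split_ifs at hr with h1
  · obtain ⟨h2, h3⟩ := mul_ne_zero_iff.1 hr
    obtain ⟨p, hp⟩ := Finset.card_ne_zero.1 (Nat.cast_ne_zero.1 h3)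
    obtain ⟨hp1, hp2⟩ := Finset.mem_filter.1 hp
    exact ⟨h1.2, hp2.trans (mul_le_mul_of_nonneg_left (h _ (mf_ne_zero h2 hp1)) hD)⟩
  · exact absurd rfl hr

theorem dvP_shN {k : ℕ} {φ : ℕ → ℂ} (h : DvP k (mf φ)) (i : ℕ) : DvP k (shN φ i) := by
  refine h.of_le fun n _ => ?_
  unfold shN
  rw [norm_mul, Complex.norm_real, Real.norm_of_nonneg (shw_nonneg _ _)]
  exact mul_le_of_le_one_right (norm_nonneg _) (shw_le_one _ _)

theorem bvs_shN {K : ℝ} {k : ℕ} {φ : ℕ → ℂ} (hφ : BV φ K) (h : DvP k (mf φ)) (i : ℕ) : BVS K k (shN φ i) := by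
  classical
  intro b hb
  refine ⟨fun n => (mf φ b * (shw i ((pfs b).card + 1) : ℂ)) * φ n, (hφ.const_mul _).mono ?_, ?_⟩
  · rw [mul_comm K]
    refine mul_le_mul_of_nonneg_right ?_ hφ.nonneg
    rw [norm_mul, Complex.norm_real, Real.norm_of_nonneg (shw_nonneg _ _)]
    exact (mul_le_of_le_one_right (norm_nonneg _) (shw_le_one _ _)).trans (h b hb.1)
  · intro q hq hq' hqb
    have hb0 : b ≠ 0 := hb.1.ne_zero
    have hc : (pfs (q * b)).card = (pfs b).card + 1 := by
      have hn : q ∉ pfs b := fun hm => hqb (pra_of_mem_pfs hm).2.2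
      rw [pfs_mul hq.ne_zero hb0, pfs_prime hq hq', ← Finset.insert_eq,
        Finset.card_insert_of_notMem hn]
    unfold shN
    rw [mf_prime_mul φ hq hq' hb0 hqb, hc]
    ring

end Crest.Agent.R12.BH
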