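import Crest.Agent.R12.BH.Bar
import Crest.Agent.R12.BH.Shap

/-! Row 12, block BH: the case analysis.  Prefix for helper lemmas: `coa_` (part a), `cob_` (part b). -/

set_option autoImplicit false

namespace Crest.Agent.R12.BH

open Crest.Agent.R17 Filter

/-! ### Part a -/

theorem QQ_swap12 (l : ℤ) (a Y A : ℝ) (α c : O → ℂ) (ψ₁ ψ₂ ψ₃ : ℕ → ℂ) :
    QQ l a Y A α c ψ₁ ψ₂ ψ₃ = QQ l a Y A α c ψ₂ ψ₁ ψ₃ := by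
  unfold QQ; rw [cv_left_comm (nw ψ₁)]

theorem QQ_swap23 (l : ℤ) (a Y A : ℝ) (α c : O → ℂ) (ψ₁ ψ₂ ψ₃ : ℕ → ℂ) :
    QQ l a Y A α c ψ₁ ψ₂ ψ₃ = QQ l a Y A α c ψ₁ ψ₃ ψ₂ := by
  unfold QQ; rw [cv_comm (nw ψ₂)]

/-- `1 ≤ Bd` for large `Y` -/
theorem coa_one_le (c : ℕ) : ∀ᶠ Y : ℝ in atTop, 1 ≤ Bd Y c := by
  filter_upwards [ev_rpow_le_Bd 1 0 (θ := 0) (by norm_num) c] with Y h
  simpa using h

theorem coa_nw_supp {Y : ℝ} {ψ : ℕ → ℂ} (h : Ty Y ψ) (n : O) (hn : nw ψ n ≠ 0) : nm n ≤ Y ^ (1 / 1000 : ℝ) :=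
  h _ hn

theorem coa_cv_supp {f g : O → ℂ} {R S : ℝ} (hf : ∀ n, Prim n → f n ≠ 0 → nm n ≤ R)
    (hg : ∀ n, Prim n → g n ≠ 0 → nm n ≤ S) (m : O) (hm : cv f g m ≠ 0) : nm m ≤ R * S := by
  obtain ⟨a, b, ha, hb, rfl, h1, h2⟩ := cv_ne_zero hm
  rw [nm_mul]
  exact mul_le_mul (hf a ha h1) (hg b hb h2) (nm_nonneg _) ((nm_nonneg _).trans (hf a ha h1))

/-- a medium slot -/
theorem coa_me (h2 : TwoL) (l : ℤ) (k k' c₁ c : ℕ) : ∃ C : ℝ, 0 ≤ C ∧ ∀ᶠ Y : ℝ in atTop,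
    ∀ (a A : ℝ) (α : O → ℂ), Hy (1 / 100000) k Y a A α → ∀ (c₀ : O → ℂ) (ψ₁ ψ₂ ψ₃ : ℕ → ℂ) (T : ℝ), 1 ≤ T →
    DvP k' c₀ → BVS (T * Real.log Y ^ c₁) k' c₀ → Wt (T * Real.log Y ^ c₁) ψ₁ → Wt (T * Real.log Y ^ c₁) ψ₂ →
    Wt (T * Real.log Y ^ c₁) ψ₃ → Me Y ψ₁ → ‖QQ l a Y A α c₀ ψ₁ ψ₂ ψ₃‖ ≤ C * T * Bd Y c := by
  obtain ⟨C, hC, hev⟩ := h2 l k (k' + 5 + 1) (c₁ + 1) c
  refine ⟨C, hC, ?_⟩
  filter_upwards [hev, ev_log_ge 3] with Y hY hl a A α hy c₀ ψ₁ ψ₂ ψ₃ T hT dc bc w₁ w₂ w₃ hm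
  unfold QQ
  rw [cv_left_comm]
  have d23 : DvP (2 + 2 + 1) (cv (nw ψ₂) (nw ψ₃)) := w₂.dvP.cv w₃.dvP
  have b23 := bvs_cv (bvs_nw w₂.1 2) (bvs_nw w₃.1 2) w₂.dvP w₃.dvP
  have b := bvs_cv bc b23 dc d23
  refine hY a A α hy _ _ T hT (w₁.dvP.mono (by omega)) (dc.cv d23) (fun r _ hr => hm _ hr) (b.mono ?_ le_rfl)
  have h0 : 0 ≤ T * Real.log Y ^ c₁ := by have : 0 ≤ Real.log Y := by linarith
                                          positivity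
  calc _ = T * Real.log Y ^ c₁ * 3 := by ring
    _ ≤ T * Real.log Y ^ c₁ * Real.log Y := mul_le_mul_of_nonneg_left hl h0
    _ = _ := by ring

/-- a negligible slot -/
theorem coa_ng (l : ℤ) (k k' : ℕ) : ∀ᶠ Y : ℝ in atTop,
    ∀ (a A : ℝ) (α : O → ℂ), Hy (1 / 100000) k Y a A α → ∀ (c₀ : O → ℂ) (ψ₁ ψ₂ ψ₃ : ℕ → ℂ) (K : ℝ),
    DvP k' c₀ → Wt K ψ₂ → Wt K ψ₃ → Ng Y ψ₁ → ‖QQ l a Y A α c₀ ψ₁ ψ₂ ψ₃‖ ≤ 1 := by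
  filter_upwards [LL_triv l k (0 + (k' + (2 + 2 + 1) + 1) + 1), eventually_ge_atTop 1] with Y hY h1 a A α hy c₀ ψ₁ ψ₂ ψ₃ K
    dc w₂ w₃ hn
  unfold QQ
  rw [cv_left_comm]
  have hY0 : 0 < Y := by linarith
  have hM : 0 ≤ Y ^ (-10 : ℝ) := by positivity
  refine (hY a A α hy _ _ hM fun m hm _ => norm_cv_le hM (fun n _ => by simpa [nw] using hn _)
    (dc.cv (w₂.dvP.cv w₃.dvP)) hm.1).trans ?_
  rw [← Real.rpow_natCast, ← Real.rpow_add hY0]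
  exact Real.rpow_le_one_of_one_le_of_nonpos h1 (by norm_num)

/-- three tiny slots -/
theorem coa_ttt (l : ℤ) (k k' : ℕ) : ∀ᶠ Y : ℝ in atTop,
    ∀ (a A : ℝ) (α : O → ℂ), Hy (1 / 100000) k Y a A α → ∀ (c₀ : O → ℂ) (ψ₁ ψ₂ ψ₃ : ℕ → ℂ) (K : ℝ),
    DvP k' c₀ → (∀ n, Prim n → c₀ n ≠ 0 → nm n ≤ Y ^ (1 / 1000 : ℝ)) → Wt K ψ₁ → Wt K ψ₂ → Wt K ψ₃ →
    Ty Y ψ₁ → Ty Y ψ₂ → Ty Y ψ₃ → ‖QQ l a Y A α c₀ ψ₁ ψ₂ ψ₃‖ ≤ 1 := by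
  filter_upwards [LL_small l k (k' + (2 + (2 + 2 + 1) + 1) + 1), eventually_ge_atTop 1] with Y hY h1 a A α hy c₀ ψ₁ ψ₂
    ψ₃ K dc hc w₁ w₂ w₃ t₁ t₂ t₃
  have hY0 : 0 < Y := by linarith
  refine hY a A α hy _ (dc.cv (w₁.dvP.cv (w₂.dvP.cv w₃.dvP))) fun m _ hm => ?_
  refine (coa_cv_supp hc (fun n _ hn => coa_cv_supp (fun n _ => coa_nw_supp t₁ n) (fun n _ hn =>
    coa_cv_supp (fun n _ => coa_nw_supp t₂ n) (fun n _ => coa_nw_supp t₃ n) n hn) n hn) m hm).trans ?_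
  rw [← Real.rpow_add hY0, ← Real.rpow_add hY0, ← Real.rpow_add hY0]
  exact Real.rpow_le_rpow_of_exponent_le h1 (by norm_num)

/-- one large slot -/
theorem coa_ttl {l : ℤ} {η : ℝ} (ha : BaL l η) (k k' c : ℕ) : ∃ (C : ℝ) (N : ℕ), 0 ≤ C ∧ ∀ᶠ Y : ℝ in atTop,
    ∀ (a A : ℝ) (α : O → ℂ), Hy η k Y a A α → ∀ (c₀ : O → ℂ) (ψ₁ ψ₂ ψ₃ : ℕ → ℂ) (T K : ℝ), 1 ≤ T →
    DvP k' c₀ → (∀ n, Prim n → c₀ n ≠ 0 → nm n ≤ Y ^ (1 / 1000 : ℝ)) → Wt K ψ₁ → Wt K ψ₂ →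
    Ty Y ψ₁ → Ty Y ψ₂ → Lg Y T ψ₃ → ‖QQ l a Y A α c₀ ψ₁ ψ₂ ψ₃‖ ≤ C * T ^ N * Bd Y c := by
  obtain ⟨C, N, hC, hev⟩ := ha k (k' + (2 + 2 + 1) + 1) (c + 1)
  refine ⟨20 * C, N, by positivity, ?_⟩
  filter_upwards [hev, ev_log_ge 1, eventually_gt_atTop 1] with Y hY hl h1 a A α hy c₀ ψ₁ ψ₂ ψ₃ T K hT dc hc w₁ w₂
    t₁ t₂ l₃
  have hY0 : 0 < Y := by linarith
  have e : QQ l a Y A α c₀ ψ₁ ψ₂ ψ₃ = LL l a Y A α (cv (cv c₀ (cv (nw ψ₁) (nw ψ₂))) (nw ψ₃)) := by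
    unfold QQ; rw [cv_assoc, cv_assoc]
  rw [e]
  refine (lg_bound ((ff_LL l a Y A α).cv_right _) (XX_le h1.le) hl h1.le l₃ (E := C * T ^ N * Bd Y (c + 1))
    fun M t hM ht => ?_).trans_eq ?_
  · refine hY a A α hy _ M t T hT ht ((Real.rpow_pos_of_pos hY0 _).trans_le hM) (dc.cv (w₁.dvP.cv w₂.dvP))
      fun n _ hn => ?_
    refine (coa_cv_supp hc (fun n _ hn => coa_cv_supp (fun n _ => coa_nw_supp t₁ n)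
      (fun n _ => coa_nw_supp t₂ n) n hn) n hn).trans ?_
    rw [← Real.rpow_add hY0, ← Real.rpow_add hY0]
    exact Real.rpow_le_rpow_of_exponent_le h1.le (by norm_num)
  · rw [← log_mul_Bd h1 c 1]; ring

/-- two large slots -/
theorem coa_ll {l : ℤ} {η : ℝ} (hb : BbL l η) (k k' c : ℕ) : ∃ (C : ℝ) (N : ℕ), 0 ≤ C ∧ ∀ᶠ Y : ℝ in atTop,
    ∀ (a A : ℝ) (α : O → ℂ), Hy η k Y a A α → ∀ (c₀ : O → ℂ) (ψ₁ ψ₂ ψ₃ : ℕ → ℂ) (T K : ℝ), 1 ≤ T →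
    DvP k' c₀ → Wt K ψ₁ → Lg Y T ψ₂ → Lg Y T ψ₃ → ‖QQ l a Y A α c₀ ψ₁ ψ₂ ψ₃‖ ≤ C * T ^ N * Bd Y c := by
  obtain ⟨C, N, hC, hev⟩ := hb k (k' + 2 + 1) (c + 2)
  refine ⟨400 * C, N, by positivity, ?_⟩
  filter_upwards [hev, ev_log_ge 1, eventually_gt_atTop 1] with Y hY hl h1 a A α hy c₀ ψ₁ ψ₂ ψ₃ T K hT dc w₁ l₂ l₃
  have e : QQ l a Y A α c₀ ψ₁ ψ₂ ψ₃ = LL l a Y A α (cv (cv (cv c₀ (nw ψ₁)) (nw ψ₂)) (nw ψ₃)) := by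
    unfold QQ; rw [cv_assoc, cv_assoc]
  rw [e]
  refine (lg_bound ((ff_LL l a Y A α).cv_right _) (XX_le h1.le) hl h1.le l₃
    (E := 20 * Real.log Y * (C * T ^ N * Bd Y (c + 2))) fun M₃ t₃ hM₃ ht₃ => ?_).trans_eq ?_
  · exact lg_bound (((ff_LL l a Y A α).cv_left _).cv_right _) (XX_le h1.le) hl h1.le l₂
      fun M₂ t₂ hM₂ ht₂ => hY a A α hy _ M₂ M₃ t₂ t₃ T hT ht₂ ht₃ hM₂ hM₃ (dc.cv w₁.dvP)
  · rw [← log_mul_Bd h1 c 2]; ring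

/-- single kinds.  A medium slot: move it to the front, `TwoL` with `bvs_cv`, `bvs_nw` (constant `3 T log^c₁ ≤ T log^(c₁+1)`).
A negligible slot: `norm_cv_le`, `LL_triv`.  Three tiny slots: `LL_small`.  One large slot: `lg_bound` + `BaL`.
Two large slots (the third arbitrary): `lg_bound` twice + `BbL`.  Use the symmetry `QQ_swap12`, `QQ_swap23`. -/
theorem QQ_kind {l : ℤ} {η : ℝ} (hη : η ≤ 1 / 100000) (h2 : TwoL) (ha : BaL l η) (hb : BbL l η) (k k' c₁ c : ℕ) :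
    ∃ (C : ℝ) (N : ℕ), 0 ≤ C ∧ ∀ᶠ Y : ℝ in atTop, ∀ (a A : ℝ) (α : O → ℂ),
    Hy η k Y a A α → ∀ (c₀ : O → ℂ) (ψ₁ ψ₂ ψ₃ : ℕ → ℂ) (T : ℝ), 1 ≤ T → DvP k' c₀ →
    BVS (T * Real.log Y ^ c₁) k' c₀ → (∀ n, Prim n → c₀ n ≠ 0 → nm n ≤ Y ^ (1 / 1000 : ℝ)) →
    Wt (T * Real.log Y ^ c₁) ψ₁ → Wt (T * Real.log Y ^ c₁) ψ₂ → Wt (T * Real.log Y ^ c₁) ψ₃ →
    Kd Y T ψ₁ → Kd Y T ψ₂ → Kd Y T ψ₃ → ‖QQ l a Y A α c₀ ψ₁ ψ₂ ψ₃‖ ≤ C * T ^ N * Bd Y c := by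
  obtain ⟨C₁, hC₁, e₁⟩ := coa_me h2 l k k' c₁ c
  obtain ⟨C₂, N₂, hC₂, e₂⟩ := coa_ttl ha k k' c
  obtain ⟨C₃, N₃, hC₃, e₃⟩ := coa_ll hb k k' c
  refine ⟨1 + C₁ + C₂ + C₃, 1 + N₂ + N₃, by positivity, ?_⟩
  filter_upwards [e₁, e₂, e₃, coa_ng l k k', coa_ttt l k k', coa_one_le c, eventually_gt_atTop 1] with Y e₁ e₂ e₃ e₄ e₅
    hB h1 a A α hy c₀ ψ₁ ψ₂ ψ₃ T hT dc bc hc w₁ w₂ w₃ k₁ k₂ k₃
  have hy' := hy.mono h1.le hη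
  set E : ℝ := (1 + C₁ + C₂ + C₃) * T ^ (1 + N₂ + N₃) * Bd Y c with hE
  have hup : ∀ (C : ℝ) (N : ℕ), 0 ≤ C → C ≤ 1 + C₁ + C₂ + C₃ → N ≤ 1 + N₂ + N₃ → C * T ^ N * Bd Y c ≤ E := by
    intro C N h0 hC hN
    exact mul_le_mul_of_nonneg_right (mul_le_mul hC (pow_le_pow_right₀ hT hN) (by positivity) (by positivity))
      (by linarith)
  have h1E : 1 ≤ E := by
    have := hup 1 0 zero_le_one (by linarith) (by omega)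
    simp only [pow_zero, mul_one, one_mul] at this
    exact hB.trans this
  set K : ℝ := T * Real.log Y ^ c₁ with hK
  have me : ∀ ψ₁ ψ₂ ψ₃, Wt K ψ₁ → Wt K ψ₂ → Wt K ψ₃ → Me Y ψ₁ → ‖QQ l a Y A α c₀ ψ₁ ψ₂ ψ₃‖ ≤ E :=
    fun ψ₁ ψ₂ ψ₃ w₁ w₂ w₃ h => (e₁ a A α hy' c₀ ψ₁ ψ₂ ψ₃ T hT dc bc w₁ w₂ w₃ h).trans
      (by simpa using hup C₁ 1 hC₁ (by linarith) (by omega))
  have ng : ∀ ψ₁ ψ₂ ψ₃, Wt K ψ₂ → Wt K ψ₃ → Ng Y ψ₁ → ‖QQ l a Y A α c₀ ψ₁ ψ₂ ψ₃‖ ≤ E :=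
    fun ψ₁ ψ₂ ψ₃ w₂ w₃ h => (e₄ a A α hy' c₀ ψ₁ ψ₂ ψ₃ K dc w₂ w₃ h).trans h1E
  have ttl : ∀ ψ₁ ψ₂ ψ₃, Wt K ψ₁ → Wt K ψ₂ → Ty Y ψ₁ → Ty Y ψ₂ → Lg Y T ψ₃ → ‖QQ l a Y A α c₀ ψ₁ ψ₂ ψ₃‖ ≤ E :=
    fun ψ₁ ψ₂ ψ₃ w₁ w₂ t₁ t₂ h => (e₂ a A α hy c₀ ψ₁ ψ₂ ψ₃ T K hT dc hc w₁ w₂ t₁ t₂ h).trans
      (hup C₂ N₂ hC₂ (by linarith) (by omega))
  have ll : ∀ ψ₁ ψ₂ ψ₃, Wt K ψ₁ → Lg Y T ψ₂ → Lg Y T ψ₃ → ‖QQ l a Y A α c₀ ψ₁ ψ₂ ψ₃‖ ≤ E :=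
    fun ψ₁ ψ₂ ψ₃ w₁ h h' => (e₃ a A α hy c₀ ψ₁ ψ₂ ψ₃ T K hT dc w₁ h h').trans
      (hup C₃ N₃ hC₃ (by linarith) (by omega))
  -- first dispose of the medium and negligible slots
  have s2 : ∀ ψ₁ ψ₂ ψ₃, ‖QQ l a Y A α c₀ ψ₂ ψ₁ ψ₃‖ ≤ E → ‖QQ l a Y A α c₀ ψ₁ ψ₂ ψ₃‖ ≤ E :=
    fun ψ₁ ψ₂ ψ₃ h => by rwa [QQ_swap12]
  have s3 : ∀ ψ₁ ψ₂ ψ₃, ‖QQ l a Y A α c₀ ψ₁ ψ₃ ψ₂‖ ≤ E → ‖QQ l a Y A α c₀ ψ₁ ψ₂ ψ₃‖ ≤ E :=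
    fun ψ₁ ψ₂ ψ₃ h => by rwa [QQ_swap23]
  rcases k₁ with k₁ | k₁ | k₁ | k₁
  rotate_left
  · exact me _ _ _ w₁ w₂ w₃ k₁
  · exact ng _ _ _ w₂ w₃ k₁
  all_goals
    rcases k₂ with k₂ | k₂ | k₂ | k₂
    rotate_left
    · exact s2 _ _ _ (me _ _ _ w₂ w₁ w₃ k₂)
    · exact s2 _ _ _ (ng _ _ _ w₁ w₃ k₂)
    all_goals
      rcases k₃ with k₃ | k₃ | k₃ | k₃
      rotate_left
      · exact s3 _ _ _ (s2 _ _ _ (me _ _ _ w₃ w₁ w₂ k₃))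
      · exact s3 _ _ _ (s2 _ _ _ (ng _ _ _ w₁ w₂ k₃))
      all_goals first
        | exact ll _ _ _ w₁ k₂ k₃
        | exact s2 _ _ _ (ll _ _ _ w₂ k₁ k₃)
        | exact s3 _ _ _ (s2 _ _ _ (ll _ _ _ w₃ k₁ k₂))
        | exact ttl _ _ _ w₁ w₂ k₁ k₂ k₃
        | exact s3 _ _ _ (ttl _ _ _ w₁ w₃ k₁ k₃ k₂)
        | exact s2 _ _ _ (s3 _ _ _ (ttl _ _ _ w₂ w₃ k₂ k₃ k₁))
        | exact (e₅ a A α hy' c₀ _ _ _ K dc hc w₁ w₂ w₃ k₁ k₂ k₃).trans h1E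

theorem coa_sum (l : ℤ) (a Y A : ℝ) (α c : O → ℂ) {ψ₁ : ℕ → ℂ} (ψ₂ ψ₃ : ℕ → ℂ) {p : Fin 4 → ℕ → ℂ}
    (h : ∀ n, ψ₁ n = ∑ j, p j n) : QQ l a Y A α c ψ₁ ψ₂ ψ₃ = ∑ j, QQ l a Y A α c (p j) ψ₂ ψ₃ := by
  have hF := ((ff_LL l a Y A α).cv_right c).cv_left (cv (nw ψ₂) (nw ψ₃))
  have e : nw ψ₁ = fun n => ∑ j, (1 : ℂ) * nw (p j) n := funext fun n => by simp [nw, h]
  unfold QQ
  rw [e]
  simpa using hF.sum Finset.univ (fun _ => 1) fun j => nw (p j)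

theorem coa_four {f : Fin 4 → ℂ} {E : ℝ} (h : ∀ j, ‖f j‖ ≤ E) : ‖∑ j, f j‖ ≤ 4 * E :=
  (norm_sum_le _ _).trans (by simpa using Finset.sum_le_card_nsmul Finset.univ (fun j => ‖f j‖) E fun j _ => h j)

/-- `QQ` is additive in each slot (`FF.sum`, `FF.cv_left`, `FF.cv_right`): `64` terms -/
theorem qL {l : ℤ} {η : ℝ} (hη : η ≤ 1 / 100000) (h2 : TwoL) (ha : BaL l η) (hb : BbL l η) : QL l η := by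
  intro k k' c₁ c
  obtain ⟨C, N, hC, hev⟩ := QQ_kind hη h2 ha hb k k' c₁ c
  refine ⟨64 * C, N, by positivity, ?_⟩
  filter_upwards [hev] with Y hY a A α hy c₀ ψ₁ ψ₂ ψ₃ T hT dc bc hc ⟨p₁, h₁, e₁⟩ ⟨p₂, h₂, e₂⟩ ⟨p₃, h₃, e₃⟩
  have e : 64 * C * T ^ N * Bd Y c = 4 * (4 * (4 * (C * T ^ N * Bd Y c))) := by ring
  rw [e, coa_sum l a Y A α c₀ ψ₂ ψ₃ e₁]
  refine coa_four fun j₁ => ?_
  rw [QQ_swap12, coa_sum l a Y A α c₀ _ ψ₃ e₂]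
  refine coa_four fun j₂ => ?_
  rw [QQ_swap23, QQ_swap12, coa_sum l a Y A α c₀ _ _ e₃]
  refine coa_four fun j₃ => ?_
  exact hY a A α hy c₀ _ _ _ T hT dc bc hc (h₃ j₃).1 (h₂ j₂).1 (h₁ j₁).1 (h₃ j₃).2 (h₂ j₂).2 (h₁ j₁).2

/-! ### Part b -/

open Classical in
/-- `φ n = -1[n ≤ Z] ∑ bᵢ pw Y zᵢ n` -/
noncomputable def nu (Y Z : ℝ) (b₁ b₂ b₃ z₁ z₂ z₃ : ℂ) (n : ℕ) : ℂ :=
  -(b₁ * pw Y z₁ n + b₂ * pw Y z₂ n + b₃ * pw Y z₃ n) * (if (n : ℝ) ≤ Z then 1 else 0)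

open Classical in
/-- the plain variable or `δ` -/
noncomputable def pv (Y : ℝ) (b z : ℂ) : ℕ → ℂ := if b = 1 then pw Y z else dl

theorem cob_pv {X Y : ℝ} (hX : X ≤ Y) {b : ℂ} (z : ℂ) (h : b = 0 ∨ b = 1) :
    EqS X (nw (pv Y b z)) (mf fun n => b * (n : ℂ) ^ z) := by
  rcases h with rfl | rfl
  · have e : pv Y 0 z = dl := by simp [pv]
    rw [e]
    simpa only [zero_mul] using nw_dl X
  · have e : pv Y 1 z = pw Y z := by simp [pv]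
    rw [e]
    simpa only [one_mul] using nw_pw hX z

/-- `nw_pw`, `nw_dl`, `cv_mf`, `EqS.cv`, `mf_congr` -/
theorem co_eq {X Y Z : ℝ} (hX : X ≤ Y) {b₁ b₂ b₃ : ℂ} (z₁ z₂ z₃ : ℂ) (h₁ : b₁ = 0 ∨ b₁ = 1) (h₂ : b₂ = 0 ∨ b₂ = 1)
    (h₃ : b₃ = 0 ∨ b₃ = 1) : EqS X (co Z b₁ b₂ b₃ z₁ z₂ z₃) (cv (mf (nu Y Z b₁ b₂ b₃ z₁ z₂ z₃))
      (cv (nw (pv Y b₁ z₁)) (cv (nw (pv Y b₂ z₂)) (nw (pv Y b₃ z₃))))) := by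
  have e1 := (EqS.cv (cob_pv hX z₂ h₂) (cob_pv hX z₃ h₃)).trans (cv_mf X _ _)
  have e2 := (EqS.cv (cob_pv hX z₁ h₁) e1).trans (cv_mf X _ _)
  have e3 := (EqS.cv (EqS.refl X (mf (nu Y Z b₁ b₂ b₃ z₁ z₂ z₃))) e2).trans (cv_mf X _ _)
  refine EqS.trans ?_ e3.symm
  refine mf_congr fun n h2 hn => ?_
  have hp : ∀ z : ℂ, pw Y z n = (n : ℂ) ^ z := fun z => if_pos ⟨by omega, hn.trans hX⟩
  simp only [nu, hp]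
  by_cases hZ : Z < (n : ℝ)
  · rw [if_pos hZ, if_neg (not_le.2 hZ)]; ring
  · rw [if_neg hZ, if_pos (not_lt.1 hZ)]; ring

theorem cob_norm_le {b : ℂ} (h : b = 0 ∨ b = 1) : ‖b‖ ≤ 1 := by
  rcases h with rfl | rfl <;> simp

theorem cob_bv_dl : BV dl 2 := by
  have := bvb_Ioc (a := 0) (b := 1) zero_le_one
  convert this using 2 with n
  unfold dl
  have e : (n = 1) ↔ ((0 : ℝ) < (n : ℝ) ∧ (n : ℝ) ≤ 1) := by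
    constructor
    · rintro rfl; simp
    · rintro ⟨h1, h2⟩
      have h3 : 0 < n := by exact_mod_cast h1
      have h4 : n ≤ 1 := by exact_mod_cast h2
      omega
  simp only [e]

theorem cob_wt {Y T : ℝ} {b z : ℂ} (hY : 1 ≤ Real.log Y) (hY' : 1 < Y) (hT : 1 ≤ T) (hz : Az Y T z) :
    Wt (12 * T * Real.log Y) (pv Y b z) := by
  unfold pv
  split_ifs
  · refine ⟨bv_pw hY hY'.le hT hz, fun n => (norm_pw_le hY' hz n).trans (by norm_num), ?_⟩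
    unfold pw
    split_ifs <;> simp
  · refine ⟨cob_bv_dl.mono (by nlinarith), fun n => ?_, ?_⟩
    · unfold dl
      split_ifs <;> simp
    · simp [dl]

theorem cob_nu_le {Y T : ℝ} (Z : ℝ) {b₁ b₂ b₃ z₁ z₂ z₃ : ℂ} (hY : 1 < Y) (h₁ : b₁ = 0 ∨ b₁ = 1)
    (h₂ : b₂ = 0 ∨ b₂ = 1) (h₃ : b₃ = 0 ∨ b₃ = 1) (a₁ : Az Y T z₁) (a₂ : Az Y T z₂) (a₃ : Az Y T z₃) (n : ℕ) :
    ‖nu Y Z b₁ b₂ b₃ z₁ z₂ z₃ n‖ ≤ 2 ^ 4 := by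
  have t : ∀ {b z : ℂ}, (b = 0 ∨ b = 1) → Az Y T z → ‖b * pw Y z n‖ ≤ 3 := fun hb hz => by
    rw [norm_mul]
    exact (mul_le_of_le_one_left (norm_nonneg _) (cob_norm_le hb)).trans (norm_pw_le hY hz n)
  have h := (norm_add₃_le (a := b₁ * pw Y z₁ n) (b := b₂ * pw Y z₂ n) (c := b₃ * pw Y z₃ n))
  have t₁ := t h₁ a₁
  have t₂ := t h₂ a₂
  have t₃ := t h₃ a₃
  unfold nu
  split_ifs
  · rw [mul_one, norm_neg]; linarith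
  · simp

theorem cob_nu_bv {Y T : ℝ} (Z : ℝ) {b₁ b₂ b₃ z₁ z₂ z₃ : ℂ} (hY : 1 ≤ Real.log Y) (hY' : 1 ≤ Y) (hT : 1 ≤ T)
    (h₁ : b₁ = 0 ∨ b₁ = 1) (h₂ : b₂ = 0 ∨ b₂ = 1) (h₃ : b₃ = 0 ∨ b₃ = 1) (a₁ : Az Y T z₁) (a₂ : Az Y T z₂)
    (a₃ : Az Y T z₃) : BV (nu Y Z b₁ b₂ b₃ z₁ z₂ z₃) (144 * T * Real.log Y) := by
  have t : ∀ {b z : ℂ}, (b = 0 ∨ b = 1) → Az Y T z →
      BV (fun n => b * pw Y z n) (12 * T * Real.log Y) := fun hb hz =>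
    ((bv_pw hY hY' hT hz).const_mul _).mono
      (mul_le_of_le_one_left (by positivity) (cob_norm_le hb))
  have h := ((((t h₁ a₁).add (t h₂ a₂)).add (t h₃ a₃)).const_mul (-1)).mul (bv_le Z)
  refine BV.mono (K := _) (by convert h using 2 with n; unfold nu; ring) (le_of_eq ?_)
  rw [norm_neg, norm_one]; ring

theorem cob_nu_supp {Y Z : ℝ} {b₁ b₂ b₃ z₁ z₂ z₃ : ℂ} (n : ℕ) (h : nu Y Z b₁ b₂ b₃ z₁ z₂ z₃ n ≠ 0) :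
    (n : ℝ) ≤ Z := by
  by_contra hn
  exact h (by unfold nu; rw [if_neg hn, mul_zero])

/-- `co_eq`; `ν = mf nu` has `DvP 4` (`‖nu n‖ ≤ 9`) and `BV nu (144 T log Y)`.  Split `ν = ν 1[N ≤ D] + ν 1[D < N]`,
`D = Y^0.001`.  First part: `QL` (`c₁ = 3`, `dec_pw`, `dec_dl`, `BVS.mul_bv`, `bv_le`).  Second part: `shap` with
`I = ⌊2 log Y⌋₊` (`card_pfs_le_log`), `cv_assoc`, `TwoL` with `H = shH D nu i` (`supp_shH`, `D · zz Y = Y^0.141`) and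
`β = shN nu i ⋆ π₁ ⋆ π₂ ⋆ π₃`, exponent `c + 1`, `log_mul_Bd`. -/
theorem coreL {l : ℤ} {η : ℝ} (hη : η ≤ 1 / 100000) (h2 : TwoL) (hq : QL l η) : CoreL l η := by
  classical
  intro k c
  obtain ⟨C₁, N₁, hC₁, H₁⟩ := hq k 4 3 c
  obtain ⟨C₂, hC₂, H₂⟩ := h2 l k 13 2 (c + 1)
  refine ⟨C₁ + 2 * C₂, N₁ + 1, by positivity, ?_⟩
  filter_upwards [H₁, H₂, dec_pw, ev_log_ge 180, eventually_gt_atTop 1] with Y H₁ H₂ hdec hL hY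
  intro a A α hy b₁ b₂ b₃ z₁ z₂ z₃ T hT h₁ h₂ h₃ a₁ a₂ a₃
  have hL1 : 1 ≤ Real.log Y := by linarith
  have hY0 : 0 < Y := by linarith
  have hXX := XX_le hY.le
  set φ := nu Y (zz Y) b₁ b₂ b₃ z₁ z₂ z₃ with hφ
  set P := cv (nw (pv Y b₁ z₁)) (cv (nw (pv Y b₂ z₂)) (nw (pv Y b₃ z₃))) with hP
  set D := Y ^ (1 / 1000 : ℝ) with hD
  have hD1 : 1 ≤ D := Real.one_le_rpow hY.le (by norm_num)
  have dφ : DvP 4 (mf φ) := dvP_mf (cob_nu_le _ hY h₁ h₂ h₃ a₁ a₂ a₃)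
  have bφ : BV φ (144 * T * Real.log Y) := cob_nu_bv _ hL1 hY.le hT h₁ h₂ h₃ a₁ a₂ a₃
  have hF := ff_LL l a Y A α
  have hΛ := hF.cv_left P
  have hB := (Bd_pos hY c).le
  have hTL : T * Real.log Y ≤ T * Real.log Y ^ 2 / 180 := by
    rw [le_div_iff₀ (by norm_num)]
    have : T * Real.log Y * 180 ≤ T * Real.log Y * Real.log Y := by gcongr
    nlinarith
  have hTL3 : T * Real.log Y ^ 2 * 180 ≤ T * Real.log Y ^ 3 := by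
    have : T * Real.log Y ^ 2 * 180 ≤ T * Real.log Y ^ 2 * Real.log Y := by gcongr
    nlinarith
  have hTL1 : 1 ≤ T * Real.log Y := one_le_mul_of_one_le_of_one_le hT hL1
  -- the splitting
  have e0 : LL l a Y A α (co (zz Y) b₁ b₂ b₃ z₁ z₂ z₃) =
      LL l a Y A α (cv (fun n => mf φ n * (if ((nN n : ℕ) : ℝ) ≤ D then 1 else 0)) P) +
      LL l a Y A α (cv (fun n => if D < nm n then mf φ n else 0) P) := by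
    rw [hF.congr (co_eq hXX z₁ z₂ z₃ h₁ h₂ h₃), ← hΛ.add]
    congr 2
    funext n
    by_cases h : D < nm n
    · have h' : ¬ ((nN n : ℕ) : ℝ) ≤ D := not_le.2 h
      rw [if_pos h, if_neg h', mul_zero, zero_add]
    · have h' : ((nN n : ℕ) : ℝ) ≤ D := not_lt.1 h
      rw [if_neg h, if_pos h', mul_one, add_zero]
  have dec : ∀ {b z : ℂ}, Az Y T z → Dec Y T (T * Real.log Y ^ 3) (pv Y b z) := fun {b z} hz => by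
    unfold pv
    split_ifs
    · exact hdec T z hT hz
    · exact dec_dl hY.le (by linarith)
  have b1 : ‖LL l a Y A α (cv (fun n => mf φ n * (if ((nN n : ℕ) : ℝ) ≤ D then 1 else 0)) P)‖ ≤
      C₁ * T ^ N₁ * Bd Y c := by
    refine H₁ a A α hy _ _ _ _ T hT (dφ.of_le fun n _ => ?_)
      (((bvs_mf bφ dφ).mul_bv (bv_le D)).mono (by linarith) le_rfl) (fun n _ hn => ?_)
      (dec a₁) (dec a₂) (dec a₃)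
    · split_ifs <;> simp
    · by_contra h
      have h' : ¬ ((nN n : ℕ) : ℝ) ≤ D := h
      exact hn (by rw [if_neg h', mul_zero])
  -- the second part
  set I := ⌊2 * Real.log Y⌋₊ with hI
  have e2 : LL l a Y A α (cv (fun n => if D < nm n then mf φ n else 0) P) =
      ∑ i ∈ Finset.range I, LL l a Y A α (cv (shH D φ i) (cv (shN φ i) P)) := by
    have h1 : EqS (XX Y) (fun n => if D < nm n then mf φ n else 0)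
        (fun n => ∑ i ∈ Finset.range I, 1 * cv (shH D φ i) (shN φ i) n) := fun d hd hdX => by
      simp only [one_mul]
      exact shap hD1 φ hd (Nat.le_floor (card_pfs_le_log hd.ne_zero (hdX.trans hXX)))
    have h2 := (hΛ.congr h1).trans (hΛ.sum (Finset.range I) (fun _ => 1) fun i => cv (shH D φ i) (shN φ i))
    simpa only [one_mul, cv_assoc] using h2
  have w₁ := cob_wt (b := b₁) hL1 hY hT a₁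
  have w₂ := cob_wt (b := b₂) hL1 hY hT a₂
  have w₃ := cob_wt (b := b₃) hL1 hY hT a₃
  have dP : DvP (2 + (2 + 2 + 1) + 1) P := w₁.dvP.cv (w₂.dvP.cv w₃.dvP)
  have bP := bvs_cv (bvs_nw w₁.1 2) (bvs_cv (bvs_nw w₂.1 2) (bvs_nw w₃.1 2) w₂.dvP w₃.dvP) w₁.dvP
    (w₂.dvP.cv w₃.dvP)
  have hDZ : D * zz Y ≤ Y ^ (331 / 2000 : ℝ) := by
    rw [hD, zz, ← Real.rpow_add hY0]
    exact Real.rpow_le_rpow_of_exponent_le hY.le (by norm_num)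
  have b2 : ∀ i, ‖LL l a Y A α (cv (shH D φ i) (cv (shN φ i) P))‖ ≤ C₂ * T * Bd Y (c + 1) := fun i => by
    refine H₂ a A α (hy.mono hY.le hη) _ _ T hT ((dvP_shH dφ D i).mono (by norm_num))
      ((dvP_shN dφ i).cv dP) (fun r _ hr => ?_)
      ((bvs_cv (bvs_shN bφ dφ i) bP (dvP_shN dφ i) dP).mono (by linarith) le_rfl)
    have := supp_shH (Z := zz Y) (by linarith) cob_nu_supp hr
    exact ⟨this.1, this.2.trans hDZ⟩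
  have hIle : (I : ℝ) ≤ 2 * Real.log Y := Nat.floor_le (by linarith)
  have hB1 := (Bd_pos hY (c + 1)).le
  have b3 : ‖∑ i ∈ Finset.range I, LL l a Y A α (cv (shH D φ i) (cv (shN φ i) P))‖ ≤
      2 * C₂ * T * Bd Y c := by
    refine (norm_sum_le _ _).trans ((Finset.sum_le_sum fun i _ => b2 i).trans ?_)
    rw [Finset.sum_const, Finset.card_range, nsmul_eq_mul, ← log_mul_Bd hY c 1]
    calc (I : ℝ) * (C₂ * T * Bd Y (c + 1)) ≤ 2 * Real.log Y * (C₂ * T * Bd Y (c + 1)) := by gcongr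
      _ = _ := by ring
  have p1 : T ^ N₁ ≤ T ^ (N₁ + 1) := pow_le_pow_right₀ hT (Nat.le_succ _)
  have p2 : T ≤ T ^ (N₁ + 1) := le_self_pow₀ hT (Nat.succ_ne_zero _)
  rw [e0, e2]
  refine (norm_add_le _ _).trans ((add_le_add b1 b3).trans ?_)
  calc C₁ * T ^ N₁ * Bd Y c + 2 * C₂ * T * Bd Y c
      ≤ C₁ * T ^ (N₁ + 1) * Bd Y c + 2 * C₂ * T ^ (N₁ + 1) * Bd Y c := by gcongr
    _ = _ := by ring

end Crest.Agent.R12.BH
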