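import Crest.Agent.R12.BH.Defs

/-! Row 12, block BH: algebra of the convolution `cv`.  Prefix for helper lemmas: `cva_` (part a), `cvb_` (part b). -/

set_option autoImplicit false

namespace Crest.Agent.R12.BH

open Crest.Agent.R17 Filter

/-! ### Part a -/

theorem cv_comm (f g : O → ℂ) : cv f g = cv g f := by
  funext m
  refine Finset.sum_nbij' Prod.swap Prod.swap ?_ ?_ (fun _ _ => rfl) (fun _ _ => rfl)
    fun p _ => mul_comm _ _
  all_goals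
    intro p hp
    obtain ⟨h1, h2, h3⟩ := mem_anti.1 hp
    exact mem_anti.2 ⟨h2, h1, (mul_comm _ _).trans h3⟩

/-- `mem_anti`; both sides are sums over triples of primary elements with product `m`
(`Finset.sum_sigma'`, `Finset.sum_bij'` / `sum_nbij'`) -/
theorem cv_assoc (f g h : O → ℂ) : cv (cv f g) h = cv f (cv g h) := by
  funext m
  simp only [cv, Finset.sum_mul, Finset.mul_sum]
  rw [Finset.sum_sigma', Finset.sum_sigma']
  refine Finset.sum_bij' (fun x _ => ⟨(x.2.1, x.2.2 * x.1.2), (x.2.2, x.1.2)⟩)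
    (fun x _ => ⟨(x.1.1 * x.2.1, x.2.2), (x.1.1, x.2.1)⟩) ?_ ?_ ?_ ?_ ?_
  · rintro ⟨⟨a, b⟩, ⟨c, d⟩⟩ hx
    simp only [Finset.mem_sigma, mem_anti] at hx ⊢
    obtain ⟨⟨h1, h2, h3⟩, h4, h5, h6⟩ := hx
    exact ⟨⟨h4, h5.mul h2, by rw [← mul_assoc, h6, h3]⟩, h5, h2, trivial⟩
  · rintro ⟨⟨a, b⟩, ⟨c, d⟩⟩ hx
    simp only [Finset.mem_sigma, mem_anti] at hx ⊢
    obtain ⟨⟨h1, h2, h3⟩, h4, h5, h6⟩ := hx
    exact ⟨⟨h1.mul h4, h5, by rw [mul_assoc, h6, h3]⟩, h1, h4, trivial⟩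
  · rintro ⟨⟨a, b⟩, ⟨c, d⟩⟩ hx
    simp only [Finset.mem_sigma, mem_anti] at hx
    obtain ⟨-, -, -, h6⟩ := hx
    subst h6
    rfl
  · rintro ⟨⟨a, b⟩, ⟨c, d⟩⟩ hx
    simp only [Finset.mem_sigma, mem_anti] at hx
    obtain ⟨-, -, -, h6⟩ := hx
    subst h6
    rfl
  · rintro ⟨⟨a, b⟩, ⟨c, d⟩⟩ _
    exact mul_assoc _ _ _

theorem cv_left_comm (f g h : O → ℂ) : cv f (cv g h) = cv g (cv f h) := by
  rw [← cv_assoc, cv_comm f g, cv_assoc]

theorem cv_one (f g : O → ℂ) : cv f g 1 = f 1 * g 1 := by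
  have : anti 1 = {(1, 1)} := by
    ext ⟨a, b⟩
    simp only [mem_anti, Finset.mem_singleton, Prod.mk.injEq]
    constructor
    · rintro ⟨h1, h2, h3⟩
      exact ⟨h1.eq_one_of_isUnit (IsUnit.of_mul_eq_one b h3),
        h2.eq_one_of_isUnit (IsUnit.of_mul_eq_one a ((mul_comm _ _).trans h3))⟩
    · rintro ⟨rfl, rfl⟩
      exact ⟨prim_one, prim_one, mul_one 1⟩
  rw [cv, this, Finset.sum_singleton]

/-- the prime `p` divides exactly one of the two factors -/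
theorem cv_prime_mul (f g : O → ℂ) {p m : O} (hp : Prime p) (hp' : Prim p) (hm : Prim m) (h : ¬ p ∣ m) :
    cv f g (p * m) = cv (fun a => f (p * a)) g m + cv f (fun b => g (p * b)) m := by
  classical
  have hp0 := hp.ne_zero
  have e : anti (p * m) = (anti m).image (fun q => (p * q.1, q.2)) ∪
      (anti m).image fun q => (q.1, p * q.2) := by
    ext ⟨a, b⟩
    simp only [Finset.mem_union, Finset.mem_image, mem_anti, Prod.mk.injEq, Prod.exists]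
    constructor
    · rintro ⟨h1, h2, h3⟩
      rcases hp.dvd_or_dvd (show p ∣ a * b from h3 ▸ dvd_mul_right p m) with ⟨c, rfl⟩ | ⟨c, rfl⟩
      · exact Or.inl ⟨c, b, ⟨hp'.of_mul h1, h2,
          mul_left_cancel₀ hp0 (by rw [← mul_assoc, h3])⟩, rfl, rfl⟩
      · exact Or.inr ⟨a, c, ⟨h1, hp'.of_mul h2,
          mul_left_cancel₀ hp0 (by rw [mul_left_comm, h3])⟩, rfl, rfl⟩
    · rintro (⟨c, d, ⟨h1, h2, h3⟩, rfl, rfl⟩ | ⟨c, d, ⟨h1, h2, h3⟩, rfl, rfl⟩)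
      · exact ⟨hp'.mul h1, h2, by rw [mul_assoc, h3]⟩
      · exact ⟨h1, hp'.mul h2, by rw [mul_left_comm, h3]⟩
  have hd : Disjoint ((anti m).image fun q => (p * q.1, q.2))
      ((anti m).image fun q => (q.1, p * q.2)) := by
    rw [Finset.disjoint_left]
    intro x hx hx'
    obtain ⟨q, hq, rfl⟩ := Finset.mem_image.1 hx
    obtain ⟨q', hq', e'⟩ := Finset.mem_image.1 hx'
    obtain ⟨-, -, h3⟩ := mem_anti.1 hq
    have h4 : p * q'.2 = q.2 := congrArg Prod.snd e'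
    exact h (h3 ▸ h4 ▸ Dvd.dvd.mul_left (dvd_mul_right p q'.2) _)
  rw [cv, e, Finset.sum_union hd, Finset.sum_image, Finset.sum_image]
  · rfl
  · intro q _ q' _ e'
    simp only [Prod.mk.injEq] at e'
    exact Prod.ext e'.1 (mul_left_cancel₀ hp0 e'.2)
  · intro q _ q' _ e'
    simp only [Prod.mk.injEq] at e'
    exact Prod.ext (mul_left_cancel₀ hp0 e'.1) e'.2

theorem cv_ne_zero {f g : O → ℂ} {m : O} (h : cv f g m ≠ 0) :
    ∃ a b, Prim a ∧ Prim b ∧ a * b = m ∧ f a ≠ 0 ∧ g b ≠ 0 := by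
  obtain ⟨p, hp, h1⟩ := Finset.exists_ne_zero_of_sum_ne_zero h
  obtain ⟨h2, h3, h4⟩ := mem_anti.1 hp
  exact ⟨p.1, p.2, h2, h3, h4, left_ne_zero_of_mul h1, right_ne_zero_of_mul h1⟩

theorem cv_add_left (f f' g : O → ℂ) (m : O) : cv (fun n => f n + f' n) g m = cv f g m + cv f' g m := by
  simp only [cv, add_mul, Finset.sum_add_distrib]

theorem cv_sum_left {ι : Type*} (s : Finset ι) (f : ι → O → ℂ) (g : O → ℂ) (m : O) :
    cv (fun n => ∑ i ∈ s, f i n) g m = ∑ i ∈ s, cv (f i) g m := by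
  simp only [cv, Finset.sum_mul]
  exact Finset.sum_comm

theorem cv_smul_right (c : ℂ) (f g : O → ℂ) (m : O) : cv f (fun n => c * g n) m = c * cv f g m := by
  simp only [cv, Finset.mul_sum]
  exact Finset.sum_congr rfl fun p _ => by ring

/-- a completely multiplicative factor passes through -/
theorem cv_mul_al (l : ℤ) (f g : O → ℂ) (m : O) :
    cv (fun n => f n * al n ^ l) (fun n => g n * al n ^ l) m = cv f g m * al m ^ l := by
  simp only [cv, Finset.sum_mul]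
  refine Finset.sum_congr rfl fun p hp => ?_
  rw [← (mem_anti.1 hp).2.2, al_mul, mul_zpow]
  ring

open Classical in
/-- a sum against a convolution as a double sum -/
theorem sum_cv (f g F : O → ℂ) {X X' : ℝ} (h : X ≤ X') :
    ∑ m ∈ pball X, cv f g m * F m =
      ∑ r ∈ pball X', ∑ b ∈ pball X', if nm (r * b) ≤ X then f r * g b * F (r * b) else 0 := by
  simp only [cv, Finset.sum_mul]
  rw [Finset.sum_sigma', ← Finset.sum_product', ← Finset.sum_filter]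
  refine Finset.sum_bij' (fun x _ => x.2) (fun x _ => ⟨x.1 * x.2, x⟩) ?_ ?_ ?_ ?_ ?_
  · rintro ⟨m, ⟨a, b⟩⟩ hx
    simp only [Finset.mem_sigma, mem_anti, mem_pball, Finset.mem_filter, Finset.mem_product] at hx ⊢
    obtain ⟨⟨h1, h2⟩, h3, h4, h5⟩ := hx
    exact ⟨⟨⟨((nm_le_of_dvd (h5 ▸ dvd_mul_right a b) h2.ne_zero).trans h1).trans h, h3⟩,
      ⟨((nm_le_of_dvd (h5 ▸ dvd_mul_left b a) h2.ne_zero).trans h1).trans h, h4⟩⟩, h5 ▸ h1⟩
  · rintro ⟨a, b⟩ hx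
    simp only [Finset.mem_sigma, mem_anti, mem_pball, Finset.mem_filter, Finset.mem_product] at hx ⊢
    obtain ⟨⟨⟨-, h1⟩, -, h2⟩, h3⟩ := hx
    exact ⟨⟨h3, h1.mul h2⟩, h1, h2, trivial⟩
  · rintro ⟨m, ⟨a, b⟩⟩ hx
    simp only [Finset.mem_sigma, mem_anti] at hx
    obtain ⟨-, -, -, h5⟩ := hx
    subst h5
    rfl
  · intro _ _
    rfl
  · rintro ⟨m, ⟨a, b⟩⟩ hx
    simp only [Finset.mem_sigma, mem_anti] at hx
    obtain ⟨-, -, -, h5⟩ := hx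
    subst h5
    rfl

theorem EqS.refl (X : ℝ) (f : O → ℂ) : EqS X f f := fun _ _ _ => rfl

theorem EqS.symm {X : ℝ} {f g : O → ℂ} (h : EqS X f g) : EqS X g f := fun n h1 h2 => (h n h1 h2).symm

theorem EqS.trans {X : ℝ} {f g e : O → ℂ} (h : EqS X f g) (h' : EqS X g e) : EqS X f e :=
  fun n h1 h2 => (h n h1 h2).trans (h' n h1 h2)

theorem EqS.cv {X : ℝ} {f f' g g' : O → ℂ} (h : EqS X f f') (h' : EqS X g g') : EqS X (cv f g) (cv f' g') := by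
  intro n hn hX
  refine Finset.sum_congr rfl fun p hp => ?_
  obtain ⟨h1, h2, h3⟩ := mem_anti.1 hp
  obtain ⟨h4, h5, -⟩ := (psq_mul_iff h1 h2).1 (h3 ▸ hn)
  rw [h _ h4 ((nm_le_of_dvd (h3 ▸ dvd_mul_right _ _) hn.ne_zero).trans hX),
    h' _ h5 ((nm_le_of_dvd (h3 ▸ dvd_mul_left _ _) hn.ne_zero).trans hX)]

theorem mf_one (φ : ℕ → ℂ) : mf φ 1 = 1 := by
  rw [mf, pra_pfs_one, Finset.prod_empty]

theorem mf_prime_mul (φ : ℕ → ℂ) {p m : O} (hp : Prime p) (hp' : Prim p) (hm : m ≠ 0) (h : ¬ p ∣ m) :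
    mf φ (p * m) = φ (nN p) * mf φ m := by
  classical
  have hn : p ∉ pfs m := fun h' => h (pra_of_mem_pfs h').2.2
  rw [mf, pfs_mul hp.ne_zero hm, pfs_prime hp hp', ← Finset.insert_eq, Finset.prod_insert hn, mf]

theorem mf_mul (φ : ℕ → ℂ) {a b : O} (ha : a ≠ 0) (hb : b ≠ 0) (h : IsCoprime a b) :
    mf φ (a * b) = mf φ a * mf φ b := by
  classical
  rw [mf, pfs_mul ha hb, Finset.prod_union (pfs_disjoint h), mf, mf]

/-- `Prim.induction_sqfree` with `cv_prime_mul`, `EqS.cv`-type congruence -/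
theorem cv_mf (X : ℝ) (φ ψ : ℕ → ℂ) : EqS X (cv (mf φ) (mf ψ)) (mf fun n => φ n + ψ n) := by
  intro n hn _
  refine hn.1.induction_sqfree
    (P := fun n => cv (mf φ) (mf ψ) n = mf (fun n => φ n + ψ n) n) hn.2 ?_ ?_
  · rw [cv_one, mf_one, mf_one, mf_one, one_mul]
  · intro p m hp hp' hm _ h ih
    have e1 : cv (fun a => mf φ (p * a)) (mf ψ) m = φ (nN p) * cv (mf φ) (mf ψ) m := by
      rw [cv, cv, Finset.mul_sum]
      refine Finset.sum_congr rfl fun q hq => ?_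
      obtain ⟨h1, -, h3⟩ := mem_anti.1 hq
      rw [mf_prime_mul φ hp hp' h1.ne_zero fun h' => h (h3 ▸ h'.mul_right _), mul_assoc]
    have e2 : cv (mf φ) (fun b => mf ψ (p * b)) m = ψ (nN p) * cv (mf φ) (mf ψ) m := by
      rw [cv, cv, Finset.mul_sum]
      refine Finset.sum_congr rfl fun q hq => ?_
      obtain ⟨-, h2, h3⟩ := mem_anti.1 hq
      rw [mf_prime_mul ψ hp hp' h2.ne_zero fun h' => h (h3 ▸ h'.mul_left _), mul_left_comm]
    rw [cv_prime_mul _ _ hp hp' hm h, e1, e2, ih, mf_prime_mul _ hp hp' hm.ne_zero h, add_mul]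

/-- only the values at `2 ≤ n ≤ X` matter -/
theorem mf_congr {X : ℝ} {φ ψ : ℕ → ℂ} (h : ∀ n : ℕ, 2 ≤ n → (n : ℝ) ≤ X → φ n = ψ n) : EqS X (mf φ) (mf ψ) := by
  intro n hn hX
  refine Finset.prod_congr rfl fun p hp => ?_
  obtain ⟨h1, -, h3⟩ := pra_of_mem_pfs hp
  have h2 : (2 : ℝ) ≤ (nN p : ℝ) := two_le_nm h1
  exact h _ (by exact_mod_cast h2) ((nm_le_of_dvd h3 hn.1.ne_zero).trans hX)

theorem cva2_pow (z : ℂ) {n : O} (hn : PSq n) : mf (fun n => (n : ℂ) ^ z) n = (nN n : ℂ) ^ z := by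
  refine hn.1.induction_sqfree
    (P := fun n => mf (fun n => (n : ℂ) ^ z) n = (nN n : ℂ) ^ z) hn.2 ?_ ?_
  · simp [mf_one]
  · intro p m hp hp' hm _ h ih
    rw [mf_prime_mul _ hp hp' hm.ne_zero h, ih, nN_mul, Nat.cast_mul, Complex.natCast_mul_natCast_cpow]

theorem tw_mf (X : ℝ) (z : ℂ) (φ : ℕ → ℂ) : EqS X (tw z (mf φ)) (mf fun n => φ n * (n : ℂ) ^ z) := by
  intro n hn _
  have e : ((nm n : ℝ) : ℂ) = (nN n : ℂ) := by simp [nm]
  rw [tw, e, ← cva2_pow z hn, mf, mf, mf, Finset.prod_mul_distrib]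

theorem nw_pw {X Y : ℝ} (h : X ≤ Y) (z : ℂ) : EqS X (nw (pw Y z)) (mf fun n => (n : ℂ) ^ z) := by
  intro n hn hX
  have h1 : (1 : ℝ) ≤ (nN n : ℝ) := one_le_nm hn.1.ne_zero
  rw [cva2_pow z hn, nw, pw, if_pos ⟨by exact_mod_cast h1, hX.trans h⟩]

theorem nw_dl (X : ℝ) : EqS X (nw dl) (mf fun _ => 0) := by
  intro n hn _
  by_cases h1 : n = 1
  · subst h1
    simp [nw, dl, mf_one]
  · obtain ⟨p, hp, hp', hd⟩ := hn.1.exists_prime_dvd h1
    rw [nw, dl, if_neg fun h => h1 (hn.1.eq_one_of_isUnit (nN_eq_one.1 h)), mf]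
    exact (Finset.prod_eq_zero ((mem_pfs hn.1.ne_zero).2 ⟨hp, hp', hd⟩) rfl).symm

theorem mf_ne_zero {φ : ℕ → ℂ} {m p : O} (h : mf φ m ≠ 0) (hp : p ∈ pfs m) : φ (nN p) ≠ 0 :=
  fun h0 => h (Finset.prod_eq_zero hp h0)

/-! ### Part b -/

theorem DvP.mono {k k' : ℕ} {f : O → ℂ} (h : DvP k f) (hk : k ≤ k') : DvP k' f := by
  exact fun n hn => (h n hn).trans (pow_le_pow_right₀ (one_le_dn hn.ne_zero) hk)

theorem DvP.of_le {k : ℕ} {f g : O → ℂ} (h : DvP k f) (hg : ∀ n, Prim n → ‖g n‖ ≤ ‖f n‖) : DvP k g :=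
  fun n hn => (hg n hn).trans (h n hn)

theorem norm_cv_le {k k' : ℕ} {f g : O → ℂ} {M : ℝ} (hM : 0 ≤ M) (hf : ∀ n, Prim n → ‖f n‖ ≤ M * dn n ^ k)
    (hg : DvP k' g) {m : O} (hm : Prim m) : ‖cv f g m‖ ≤ M * dn m ^ (k + k' + 1) := by
  refine (norm_sum_le _ _).trans ?_
  have key : ∀ p ∈ anti m, ‖f p.1 * g p.2‖ ≤ M * dn m ^ (k + k') := by
    intro p hp
    obtain ⟨h1, h2, h3⟩ := mem_anti.1 hp
    have a1 : dn p.1 ≤ dn m := dn_le_of_dvd hm.ne_zero ⟨p.2, h3.symm⟩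
    have a2 : dn p.2 ≤ dn m := dn_le_of_dvd hm.ne_zero ⟨p.1, by rw [← h3, mul_comm]⟩
    rw [norm_mul, pow_add, ← mul_assoc]
    refine mul_le_mul ((hf _ h1).trans ?_) ((hg _ h2).trans ?_) (norm_nonneg _)
      (mul_nonneg hM (pow_nonneg (dn_nonneg m) _))
    · exact mul_le_mul_of_nonneg_left (pow_le_pow_left₀ (dn_nonneg _) a1 _) hM
    · exact pow_le_pow_left₀ (dn_nonneg _) a2 _
  refine (Finset.sum_le_card_nsmul _ _ _ key).trans_eq ?_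
  rw [nsmul_eq_mul, card_anti hm]
  ring

theorem DvP.cv {k k' : ℕ} {f g : O → ℂ} (hf : DvP k f) (hg : DvP k' g) : DvP (k + k' + 1) (cv f g) :=
  fun m hm => by simpa using norm_cv_le zero_le_one (fun n hn => by simpa using hf n hn) hg hm

/-- `2^ω(m) = dn (rad m) ≤ dn m` -/
theorem dvP_mf {k : ℕ} {φ : ℕ → ℂ} (h : ∀ n, ‖φ n‖ ≤ 2 ^ k) : DvP k (mf φ) := by
  intro m hm
  have h1 : dn (rad m) = 2 ^ (pfs m).card := by
    rw [dn_sqfree ⟨prim_rad m, squarefree_rad m⟩, pfs_rad]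
  have h2 : dn (rad m) ≤ dn m := dn_le_of_dvd hm.ne_zero (rad_dvd m)
  calc ‖mf φ m‖ = ∏ p ∈ pfs m, ‖φ (nN p)‖ := norm_prod _ _
    _ ≤ ∏ _p ∈ pfs m, (2 : ℝ) ^ k :=
        Finset.prod_le_prod (fun _ _ => norm_nonneg _) fun p _ => h _
    _ = dn (rad m) ^ k := by rw [Finset.prod_const, h1, ← pow_mul, ← pow_mul, mul_comm]
    _ ≤ dn m ^ k := pow_le_pow_left₀ (dn_nonneg _) h2 _

/-- a primary `n ≠ 1` has `dn n ≥ 2` -/
theorem Wt.dvP {K : ℝ} {ψ : ℕ → ℂ} (h : Wt K ψ) : DvP 2 (nw ψ) := by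
  intro n hn
  by_cases h1 : n = 1
  · subst h1
    rw [dn_one, one_pow, nw, nN_one]
    exact h.2.2
  · obtain ⟨p, hp, hp', hd⟩ := hn.exists_prime_dvd h1
    have h2 : (2 : ℝ) ≤ dn n := dn_prime hp hp' ▸ dn_le_of_dvd hn.ne_zero hd
    exact (h.2.1 _).trans (by nlinarith)

theorem Wt.mono {K K' : ℝ} {ψ : ℕ → ℂ} (h : Wt K ψ) (hK : K ≤ K') : Wt K' ψ := ⟨h.1.mono hK, h.2⟩

open Classical in
theorem DvP.dv {k : ℕ} {f : O → ℂ} (h : DvP k f) (P : O → Prop) (hP : ∀ n, P n → Prim n) :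
    Dv k fun n => if P n then f n else 0 := by
  intro n
  dsimp only
  split_ifs with h1
  · exact h n (hP n h1)
  · rw [norm_zero]; exact pow_nonneg (dn_nonneg n) _

theorem dv_mono {k k' : ℕ} {f : O → ℂ} {B X : ℝ} (hs : Supp f B X) (h : Dv k f) (hk : k ≤ k') : Dv k' f := by
  intro n
  by_cases h1 : f n = 0
  · rw [h1, norm_zero]; exact pow_nonneg (dn_nonneg n) _
  · exact (h n).trans (pow_le_pow_right₀ (one_le_dn (hs n h1).1.ne_zero) hk)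

/-- `n ↦ ψ (n · N b)` (`BV.comp`) -/
theorem bvs_nw {K : ℝ} {ψ : ℕ → ℂ} (h : BV ψ K) (k : ℕ) : BVS K k (nw ψ) := by
  intro b hb
  refine ⟨fun n => ψ (n * nN b),
    (h.comp (g := fun n => n * nN b) fun _ _ hab => Nat.mul_le_mul_right _ hab).mono
      (le_mul_of_one_le_right h.nonneg (one_le_pow₀ (one_le_dn hb.ne_zero))), fun q _ _ _ => ?_⟩
  rw [nw, nN_mul]

theorem bvs_mf {K : ℝ} {φ : ℕ → ℂ} {k : ℕ} (h : BV φ K) (hd : DvP k (mf φ)) : BVS K k (mf φ) := by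
  intro b hb
  refine ⟨fun n => mf φ b * φ n, (h.const_mul (mf φ b)).mono ?_, fun q hq hq' hqb => ?_⟩
  · rw [mul_comm]
    exact mul_le_mul_of_nonneg_left (hd b hb.1) h.nonneg
  · rw [mf_prime_mul φ hq hq' hb.ne_zero hqb, mul_comm]

/-- `cv_prime_mul`; choose the functions for all `(a, c) ∈ anti b` and add (`BV.sum`, `BV.const_mul`) -/
theorem bvs_cv {K L : ℝ} {k k' : ℕ} {f g : O → ℂ} (hf : BVS K k f) (hg : BVS L k' g) (df : DvP k f)
    (dg : DvP k' g) : BVS (K + L) (k + k' + 1) (cv f g) := by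
  have hK : 0 ≤ K := by
    obtain ⟨ψ, h1, -⟩ := hf 1 psq_one
    simpa [dn_one] using h1.nonneg
  have hL : 0 ≤ L := by
    obtain ⟨ψ, h1, -⟩ := hg 1 psq_one
    simpa [dn_one] using h1.nonneg
  choose! ψ hψ hψ' using hf
  choose! χ hχ hχ' using hg
  intro b hb
  have hanti : ∀ p ∈ anti b, PSq p.1 ∧ PSq p.2 ∧ p.1 ∣ b ∧ p.2 ∣ b := by
    intro p hp
    obtain ⟨h1, h2, h3⟩ := mem_anti.1 hp
    have h4 := (psq_mul_iff h1 h2).1 (h3 ▸ hb)
    exact ⟨h4.1, h4.2.1, ⟨p.2, h3.symm⟩, ⟨p.1, by rw [← h3, mul_comm]⟩⟩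
  refine ⟨fun n => ∑ p ∈ anti b, (g p.2 * ψ p.1 n + f p.1 * χ p.2 n),
    (BV.sum (anti b) (K := fun _ => (K + L) * dn b ^ (k + k')) fun p hp => ?_).mono (le_of_eq ?_),
    fun q hq hq' hqb => ?_⟩
  · obtain ⟨h1, h2, h3, h4⟩ := hanti p hp
    have a1 : dn p.1 ^ k ≤ dn b ^ k :=
      pow_le_pow_left₀ (dn_nonneg _) (dn_le_of_dvd hb.ne_zero h3) _
    have a2 : dn p.2 ^ k' ≤ dn b ^ k' :=
      pow_le_pow_left₀ (dn_nonneg _) (dn_le_of_dvd hb.ne_zero h4) _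
    refine (((hψ _ h1).const_mul (g p.2)).add ((hχ _ h2).const_mul (f p.1))).mono ?_
    have b1 : ‖g p.2‖ * (K * dn p.1 ^ k) ≤ dn b ^ k' * (K * dn b ^ k) :=
      mul_le_mul ((dg _ h2.1).trans a2) (mul_le_mul_of_nonneg_left a1 hK)
        (mul_nonneg hK (pow_nonneg (dn_nonneg _) _)) (pow_nonneg (dn_nonneg _) _)
    have b2 : ‖f p.1‖ * (L * dn p.2 ^ k') ≤ dn b ^ k * (L * dn b ^ k') :=
      mul_le_mul ((df _ h1.1).trans a1) (mul_le_mul_of_nonneg_left a2 hL)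
        (mul_nonneg hL (pow_nonneg (dn_nonneg _) _)) (pow_nonneg (dn_nonneg _) _)
    refine (add_le_add b1 b2).trans_eq ?_
    ring
  · rw [Finset.sum_const, nsmul_eq_mul, card_anti hb.1]
    ring
  · rw [cv_prime_mul f g hq hq' hb.1 hqb, cv, cv, ← Finset.sum_add_distrib]
    refine Finset.sum_congr rfl fun p hp => ?_
    obtain ⟨h1, h2, h3, h4⟩ := hanti p hp
    rw [hψ' _ h1 q hq hq' fun h => hqb (h.trans h3), hχ' _ h2 q hq hq' fun h => hqb (h.trans h4),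
      mul_comm (g p.2)]

theorem bvs_congr {K : ℝ} {k : ℕ} {f g : O → ℂ} (hf : BVS K k f) (h : ∀ n, PSq n → g n = f n) : BVS K k g := by
  intro b hb
  obtain ⟨ψ, h1, h2⟩ := hf b hb
  refine ⟨ψ, h1, fun q hq hq' hqb => ?_⟩
  rw [h _ ((psq_mul_iff hq' hb.1).2 ⟨psq_prime hq hq', hb,
    hq.irreducible.coprime_iff_not_dvd.2 hqb⟩), h2 q hq hq' hqb]

theorem bvs_smul {K : ℝ} {k : ℕ} {f : O → ℂ} (hf : BVS K k f) (c : ℂ) : BVS (‖c‖ * K) k fun n => c * f n := by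
  intro b hb
  obtain ⟨ψ, h1, h2⟩ := hf b hb
  refine ⟨fun n => c * ψ n, (h1.const_mul c).mono (le_of_eq (mul_assoc _ _ _).symm),
    fun q hq hq' hqb => ?_⟩
  dsimp only
  rw [h2 q hq hq' hqb]

theorem FF.congr {X : ℝ} {Λ : (O → ℂ) → ℂ} (h : FF X Λ) {f g : O → ℂ} (hfg : EqS X f g) : Λ f = Λ g := by
  obtain ⟨c, hc⟩ := h
  rw [hc, hc]
  refine Finset.sum_congr rfl fun n hn => ?_
  rw [hfg n (mem_sball.1 hn).2 (mem_sball.1 hn).1]

theorem FF.sum {X : ℝ} {Λ : (O → ℂ) → ℂ} (h : FF X Λ) {ι : Type*} (s : Finset ι) (c : ι → ℂ) (f : ι → O → ℂ) :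
    Λ (fun n => ∑ i ∈ s, c i * f i n) = ∑ i ∈ s, c i * Λ (f i) := by
  obtain ⟨d, hd⟩ := h
  simp only [hd, Finset.mul_sum]
  rw [Finset.sum_comm]
  exact Finset.sum_congr rfl fun i _ => Finset.sum_congr rfl fun n _ => by ring

theorem FF.add {X : ℝ} {Λ : (O → ℂ) → ℂ} (h : FF X Λ) (f g : O → ℂ) : Λ (fun n => f n + g n) = Λ f + Λ g := by
  obtain ⟨d, hd⟩ := h
  simp only [hd, mul_add, Finset.sum_add_distrib]

theorem FF.smul {X : ℝ} {Λ : (O → ℂ) → ℂ} (h : FF X Λ) (c : ℂ) (f : O → ℂ) : Λ (fun n => c * f n) = c * Λ f := by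
  obtain ⟨d, hd⟩ := h
  simp only [hd, Finset.mul_sum]
  exact Finset.sum_congr rfl fun n _ => by ring

/-- `Finset.sum_fiberwise_of_maps_to` over the first factor -/
theorem FF.cv_left {X : ℝ} {Λ : (O → ℂ) → ℂ} (h : FF X Λ) (g : O → ℂ) : FF X fun f => Λ (cv f g) := by
  classical
  obtain ⟨d, hd⟩ := h
  refine ⟨fun a => ∑ m ∈ sball X, ∑ p ∈ (anti m).filter fun p => p.1 = a, d m * g p.2, fun f => ?_⟩
  simp only [hd, Finset.sum_mul]
  rw [Finset.sum_comm]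
  refine Finset.sum_congr rfl fun m hm => ?_
  obtain ⟨hm1, hm2⟩ := mem_sball.1 hm
  rw [cv, Finset.mul_sum, ← Finset.sum_fiberwise_of_maps_to (s := anti m) (t := sball X) (g := Prod.fst)]
  · refine Finset.sum_congr rfl fun a _ => Finset.sum_congr rfl fun p hp => ?_
    rw [← (Finset.mem_filter.1 hp).2]
    ring
  · intro p hp
    obtain ⟨h1, -, h3⟩ := mem_anti.1 hp
    have hd : p.1 ∣ m := ⟨p.2, h3.symm⟩
    exact mem_sball.2 ⟨(nm_le_of_dvd hd hm2.ne_zero).trans hm1, h1, hm2.2.squarefree_of_dvd hd⟩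

theorem FF.cv_right {X : ℝ} {Λ : (O → ℂ) → ℂ} (h : FF X Λ) (f : O → ℂ) : FF X fun g => Λ (cv f g) := by
  simpa only [cv_comm f] using h.cv_left f

theorem ff_LL (l : ℤ) (a Y A : ℝ) (α : O → ℂ) : FF (XX Y) (LL l a Y A α) :=
  ⟨Ps l a Y A α, fun f => Finset.sum_congr rfl fun _ _ => mul_comm _ _⟩

end Crest.Agent.R12.BH
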