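import Crest.Agent.R12.Base.All
import Crest.Agent.R12.Iface

/-!
Row 12, block BH (`StBil → StRam → StBa → StBb → StBar`; owner helper21): definitions.  FROZEN.

Plan (Linnik's identity instead of Heath-Brown's).  `LL φ = ∑_m φ(m) Ps(m)` over primary squarefree `m` with
`N m ≤ XX Y = Y^0.55`, `Ps m = al(m)^l ∑_x α x f0(x m) LW`.  With `zz Y = Y^0.14`, `ps j = mf (j · 1_{> zz})`:
* `gy ≈ mf (1_{>zz} gx)`; such an `m` has at most three primes, so (`Lin`) this is a combination of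
  `gm (ps j)`, `cv (gm (ps i)) (gm (ps j))`, `cv (gm ..) (cv (gm ..) (gm ..))` with total degree `≤ 3`;
* Mellin transform of `gx` (`Mel`): `gm` becomes a twist `tw z`, and everything is
  `mf (1_{>zz} (b₁ n^z₁ + b₂ n^z₂ + b₃ n^z₃))`, `bᵢ ∈ {0,1}` (`CoreL`);
* this is `ν ⋆ π₁ ⋆ π₂ ⋆ π₃`, `ν = mf (-1_{≤zz} …)`, `πᵢ` plain or `δ`.  The part `N d > Y^0.001` of `ν` contains
  a variable in `(Y^0.001, Y^0.141]` (Shapley identity, `Shap`), each plain variable is tiny + medium + negligible +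
  large (`Bar`); a medium variable gives `TwoL` (type II), otherwise `BaL`, `BbL`.
-/

set_option autoImplicit false

namespace Crest.Agent.R12.BH

open Crest.Agent.R17 Filter

/-- Dirichlet convolution over primary factorisations -/
noncomputable def cv (f g : O → ℂ) (m : O) : ℂ := ∑ p ∈ anti m, f p.1 * g p.2

/-- the strongly multiplicative function with value `φ (N p)` at the prime `p` -/
noncomputable def mf (φ : ℕ → ℂ) (m : O) : ℂ := ∏ p ∈ pfs m, φ (nN p)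

/-- a function of the norm -/
noncomputable def nw (ψ : ℕ → ℂ) (n : O) : ℂ := ψ (nN n)

/-- twist by `N^z` -/
noncomputable def tw (z : ℂ) (f : O → ℂ) (n : O) : ℂ := f n * (nm n : ℂ) ^ z

/-- multiplication by the sieve weight of the norm -/
noncomputable def gm (κ : ℕ) (y : ℝ) (f : O → ℂ) (n : O) : ℂ := f n * (gx κ y (nm n) : ℂ)

/-- divisor bounded on the primary elements -/
def DvP (k : ℕ) (f : O → ℂ) : Prop := ∀ n, Prim n → ‖f n‖ ≤ dn n ^ k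

/-- equal on primary squarefree elements of norm `≤ X` -/
def EqS (X : ℝ) (f g : O → ℂ) : Prop := ∀ n, PSq n → nm n ≤ X → f n = g n

/-- a finite linear functional living on `sball X` -/
def FF (X : ℝ) (Λ : (O → ℂ) → ℂ) : Prop := ∃ c : O → ℂ, ∀ f, Λ f = ∑ n ∈ sball X, c n * f n

/-- the range of the column variable -/
noncomputable def XX (Y : ℝ) : ℝ := Y ^ (55 / 100 : ℝ)

/-- the sieving level -/
noncomputable def zz (Y : ℝ) : ℝ := Y ^ (14 / 100 : ℝ)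

/-- the row sum -/
noncomputable def Ps (l : ℤ) (a Y A : ℝ) (α : O → ℂ) (m : O) : ℂ :=
  al m ^ l * ∑ x ∈ ball (2 * A), α x * f0 (x * m) * (LW a Y (nm (x * m)) : ℂ)

/-- the functional -/
noncomputable def LL (l : ℤ) (a Y A : ℝ) (α : O → ℂ) (φ : O → ℂ) : ℂ :=
  ∑ m ∈ sball (XX Y), φ m * Ps l a Y A α m

/-- the standing hypotheses -/
structure Hy (η : ℝ) (k : ℕ) (Y a A : ℝ) (α : O → ℂ) : Prop where
  ha : Y ^ (-η) ≤ a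
  ha1 : a ≤ 1
  hA : Y ^ (1 / 2 - η) ≤ A
  hA' : A ≤ Y ^ (1 / 2 + η)
  supp : Supp α A (2 * A)
  dv : Dv k α

/-- the target -/
noncomputable def Bd (Y : ℝ) (c : ℕ) : ℝ := Y ^ (5 / 6 : ℝ) / Real.log Y ^ c

/-- an admissible twist -/
def Az (Y T : ℝ) (z : ℂ) : Prop := 0 ≤ z.re ∧ z.re ≤ 1 / Real.log Y ∧ |z.im| ≤ T

open Classical in
/-- the plain weight `n^z` on `1 ≤ n ≤ Y` (the function of `bv_cpow'`) -/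
noncomputable def pw (Y : ℝ) (z : ℂ) (n : ℕ) : ℂ := if 1 ≤ n ∧ (n : ℝ) ≤ Y then (n : ℂ) ^ z else 0

/-- the unit of convolution as a function of the norm -/
noncomputable def dl (n : ℕ) : ℂ := if n = 1 then 1 else 0

/-- the smooth cut-off to `x ≥ Y^0.165` -/
noncomputable def Vf (Y x : ℝ) : ℝ :=
  (√(2 * Real.pi))⁻¹ * ∫ η in (165 / 1000 * Real.log Y)..(2 * Real.log Y), LW 1 (Real.exp η) x

/-- an admissible weight -/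
def Wt (K : ℝ) (ψ : ℕ → ℂ) : Prop := BV ψ K ∧ (∀ n, ‖ψ n‖ ≤ 4) ∧ ‖ψ 1‖ ≤ 1

/-- tiny -/
def Ty (Y : ℝ) (ψ : ℕ → ℂ) : Prop := ∀ n, ψ n ≠ 0 → (n : ℝ) ≤ Y ^ (1 / 1000 : ℝ)

/-- medium -/
def Me (Y : ℝ) (ψ : ℕ → ℂ) : Prop :=
  ∀ n, ψ n ≠ 0 → Y ^ (1 / 1000 : ℝ) < (n : ℝ) ∧ (n : ℝ) ≤ Y ^ (331 / 2000 : ℝ)

/-- negligible -/
def Ng (Y : ℝ) (ψ : ℕ → ℂ) : Prop := ∀ n, ‖ψ n‖ ≤ Y ^ (-10 : ℝ)

/-- large and plain -/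
def Lg (Y T : ℝ) (ψ : ℕ → ℂ) : Prop :=
  ∃ z : ℂ, Az Y T z ∧ ∀ n : ℕ, ψ n = (Vf Y n : ℂ) * pw Y z n

/-- one of the four kinds -/
def Kd (Y T : ℝ) (ψ : ℕ → ℂ) : Prop := Ty Y ψ ∨ Me Y ψ ∨ Ng Y ψ ∨ Lg Y T ψ

/-- a sum of four admissible weights, each of one kind -/
def Dec (Y T K : ℝ) (ψ : ℕ → ℂ) : Prop :=
  ∃ p : Fin 4 → ℕ → ℂ, (∀ j, Wt K (p j) ∧ Kd Y T (p j)) ∧ ∀ n, ψ n = ∑ j, p j n

/-- the four-variable form -/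
noncomputable def QQ (l : ℤ) (a Y A : ℝ) (α c : O → ℂ) (ψ₁ ψ₂ ψ₃ : ℕ → ℂ) : ℂ :=
  LL l a Y A α (cv c (cv (nw ψ₁) (cv (nw ψ₂) (nw ψ₃))))

/-- the Shapley weight -/
noncomputable def shw (i j : ℕ) : ℝ := (i.factorial * j.factorial : ℝ) / (i + j + 1).factorial

open Classical in
/-- the variable which crosses the level `D` -/
noncomputable def shH (D : ℝ) (φ : ℕ → ℂ) (i : ℕ) (r : O) : ℂ :=
  if (pfs r).card = i + 1 ∧ D < nm r then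
    mf φ r * ((((pfs r).filter fun p => nm r ≤ D * nm p).card : ℕ) : ℂ) else 0

/-- the complementary variable -/
noncomputable def shN (φ : ℕ → ℂ) (i : ℕ) (b : O) : ℂ := mf φ b * (shw i (pfs b).card : ℂ)

open Classical in
/-- `j^ω` on the `Z`-rough elements -/
noncomputable def ps (Z : ℝ) (j : ℕ) : O → ℂ := mf fun n => if Z < (n : ℝ) then (j : ℂ) else 0

/-- a bounded combination of `ps Z 0, …, ps Z J` -/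
def Sp (Z : ℝ) (J : ℕ) (f : O → ℂ) : Prop :=
  ∃ c : ℕ → ℂ, (∀ j, ‖c j‖ ≤ 3) ∧ ∀ m, f m = ∑ j ∈ Finset.range (J + 1), c j * ps Z j m

/-- rough and `≠ 1` -/
noncomputable def r1 (Z : ℝ) (m : O) : ℂ := ps Z 1 m - ps Z 0 m

/-- `r1 ⋆ r1` -/
noncomputable def r2 (Z : ℝ) (m : O) : ℂ := ps Z 2 m - 2 * ps Z 1 m + ps Z 0 m

/-- `r1 - r1² / 2 + r1³ / 3`, the indicator of the rough primes when there are at most three primes -/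
noncomputable def r3 (Z : ℝ) (m : O) : ℂ :=
  -11 / 6 * ps Z 0 m + 3 * ps Z 1 m - 3 / 2 * ps Z 2 m + 1 / 3 * ps Z 3 m

open Classical in
/-- the sieve weight restricted to rough elements -/
noncomputable def gr (κ : ℕ) (y Z : ℝ) : O → ℂ := mf fun n => if Z < (n : ℝ) then (gx κ y n : ℂ) else 0

open Classical in
/-- the core function -/
noncomputable def co (Z : ℝ) (b₁ b₂ b₃ z₁ z₂ z₃ : ℂ) : O → ℂ :=
  mf fun n => if Z < (n : ℝ) then b₁ * (n : ℂ) ^ z₁ + b₂ * (n : ℂ) ^ z₂ + b₃ * (n : ℂ) ^ z₃ else 0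

/-- type II: one variable is medium -/
def TwoL : Prop :=
  ∀ (l : ℤ) (k k' c₁ c : ℕ), ∃ C : ℝ, 0 ≤ C ∧ ∀ᶠ Y : ℝ in atTop, ∀ (a A : ℝ) (α : O → ℂ),
    Hy (1 / 100000) k Y a A α → ∀ (H β : O → ℂ) (T : ℝ), 1 ≤ T → DvP k' H → DvP k' β →
    (∀ r, Prim r → H r ≠ 0 → Y ^ (1 / 1000 : ℝ) < nm r ∧ nm r ≤ Y ^ (331 / 2000 : ℝ)) →
    BVS (T * Real.log Y ^ c₁) k' β → ‖LL l a Y A α (cv H β)‖ ≤ C * T * Bd Y c

/-- one long plain variable -/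
def BaL (l : ℤ) (η : ℝ) : Prop :=
  ∀ (k k' c : ℕ), ∃ (C : ℝ) (N : ℕ), 0 ≤ C ∧ ∀ᶠ Y : ℝ in atTop, ∀ (a A : ℝ) (α : O → ℂ),
    Hy η k Y a A α → ∀ (c₀ : O → ℂ) (M t T : ℝ), 1 ≤ T → |t| ≤ T → 0 < M → DvP k' c₀ →
    (∀ n, Prim n → c₀ n ≠ 0 → nm n ≤ Y ^ (246 / 1000 : ℝ)) →
    ‖LL l a Y A α (cv c₀ fun n => LN 1 M t (nm n))‖ ≤ C * T ^ N * Bd Y c

/-- two long plain variables -/
def BbL (l : ℤ) (η : ℝ) : Prop :=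
  ∀ (k k' c : ℕ), ∃ (C : ℝ) (N : ℕ), 0 ≤ C ∧ ∀ᶠ Y : ℝ in atTop, ∀ (a A : ℝ) (α : O → ℂ),
    Hy η k Y a A α → ∀ (c₀ : O → ℂ) (M₂ M₃ t₂ t₃ T : ℝ), 1 ≤ T → |t₂| ≤ T → |t₃| ≤ T →
    Y ^ (165 / 1000 : ℝ) ≤ M₂ → Y ^ (165 / 1000 : ℝ) ≤ M₃ → DvP k' c₀ →
    ‖LL l a Y A α (cv (cv c₀ fun n => LN 1 M₂ t₂ (nm n)) fun n => LN 1 M₃ t₃ (nm n))‖ ≤ C * T ^ N * Bd Y c

/-- the four-variable form with a tiny first variable -/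
def QL (l : ℤ) (η : ℝ) : Prop :=
  ∀ (k k' c₁ c : ℕ), ∃ (C : ℝ) (N : ℕ), 0 ≤ C ∧ ∀ᶠ Y : ℝ in atTop, ∀ (a A : ℝ) (α : O → ℂ),
    Hy η k Y a A α → ∀ (c₀ : O → ℂ) (ψ₁ ψ₂ ψ₃ : ℕ → ℂ) (T : ℝ), 1 ≤ T → DvP k' c₀ →
    BVS (T * Real.log Y ^ c₁) k' c₀ → (∀ n, Prim n → c₀ n ≠ 0 → nm n ≤ Y ^ (1 / 1000 : ℝ)) →
    Dec Y T (T * Real.log Y ^ c₁) ψ₁ → Dec Y T (T * Real.log Y ^ c₁) ψ₂ → Dec Y T (T * Real.log Y ^ c₁) ψ₃ →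
    ‖QQ l a Y A α c₀ ψ₁ ψ₂ ψ₃‖ ≤ C * T ^ N * Bd Y c

/-- the core estimate -/
def CoreL (l : ℤ) (η : ℝ) : Prop :=
  ∀ (k c : ℕ), ∃ (C : ℝ) (N : ℕ), 0 ≤ C ∧ ∀ᶠ Y : ℝ in atTop, ∀ (a A : ℝ) (α : O → ℂ),
    Hy η k Y a A α → ∀ (b₁ b₂ b₃ z₁ z₂ z₃ : ℂ) (T : ℝ), 1 ≤ T → (b₁ = 0 ∨ b₁ = 1) → (b₂ = 0 ∨ b₂ = 1) →
    (b₃ = 0 ∨ b₃ = 1) → Az Y T z₁ → Az Y T z₂ → Az Y T z₃ →
    ‖LL l a Y A α (co (zz Y) b₁ b₂ b₃ z₁ z₂ z₃)‖ ≤ C * T ^ N * Bd Y c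

/-- the three shapes -/
def ShapeL (l : ℤ) (η : ℝ) : Prop :=
  ∀ (κ k c : ℕ), 1 ≤ κ → ∃ C : ℝ, 0 ≤ C ∧ ∀ᶠ Y : ℝ in atTop, ∀ (a A : ℝ) (α : O → ℂ),
    Hy η k Y a A α → ∀ y : ℝ, 1 ≤ y →
    (∀ j, j ≤ 3 → ‖LL l a Y A α (gm κ y (ps (zz Y) j))‖ ≤ C * Bd Y c) ∧
    (∀ i j, i ≤ 1 → j ≤ 2 →
      ‖LL l a Y A α (cv (gm κ y (ps (zz Y) i)) (gm κ y (ps (zz Y) j)))‖ ≤ C * Bd Y c) ∧
    (∀ h i j, h ≤ 1 → i ≤ 1 → j ≤ 1 → ‖LL l a Y A α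
      (cv (gm κ y (ps (zz Y) h)) (cv (gm κ y (ps (zz Y) i)) (gm κ y (ps (zz Y) j))))‖ ≤ C * Bd Y c)

end Crest.Agent.R12.BH
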