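import Crest.Agent.R12.BH.Cv

/-! Row 12, block BH: trivial bounds for `Ps`, `LL`.  Prefix for helper lemmas: `lla_` (part a), `llb_` (part b). -/

set_option autoImplicit false

namespace Crest.Agent.R12.BH

open Crest.Agent.R17 Filter

/-! ### Part a -/

theorem Hy.mono {η η' : ℝ} {k : ℕ} {Y a A : ℝ} {α : O → ℂ} (h : Hy η k Y a A α) (hY : 1 ≤ Y) (hη : η ≤ η') :
    Hy η' k Y a A α := by
  refine ⟨le_trans ?_ h.ha, h.ha1, le_trans ?_ h.hA, h.hA'.trans ?_, h.supp, h.dv⟩ <;>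
    exact Real.rpow_le_rpow_of_exponent_le hY (by linarith)

theorem Hy.pos {η : ℝ} {k : ℕ} {Y a A : ℝ} {α : O → ℂ} (h : Hy η k Y a A α) (hY : 0 < Y) : 0 < a ∧ 0 < A :=
  ⟨(Real.rpow_pos_of_pos hY _).trans_le h.ha, (Real.rpow_pos_of_pos hY _).trans_le h.hA⟩

theorem Bd_pos {Y : ℝ} (hY : 1 < Y) (c : ℕ) : 0 < Bd Y c :=
  div_pos (Real.rpow_pos_of_pos (by linarith) _) (pow_pos (Real.log_pos hY) _)

theorem log_mul_Bd {Y : ℝ} (hY : 1 < Y) (c j : ℕ) : Real.log Y ^ j * Bd Y (c + j) = Bd Y c := by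
  have := (Real.log_pos hY).ne'
  unfold Bd; field_simp; ring

theorem lla_ev (K D : ℝ) {θ θ' : ℝ} (h : θ < θ') :
    ∀ᶠ Y : ℝ in atTop, K * Y ^ θ * Real.log Y ^ D ≤ Y ^ θ' := by
  have h1 := (isLittleO_log_rpow_rpow_atTop D (sub_pos.2 h)).bound
    (show 0 < 1 / (|K| + 1) by positivity)
  filter_upwards [h1, eventually_gt_atTop 1] with Y h2 hY
  have hY0 : 0 < Y := by linarith
  have hl : 0 ≤ Real.log Y ^ D := Real.rpow_nonneg (Real.log_pos hY).le _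
  rw [Real.norm_of_nonneg hl, Real.norm_of_nonneg (by positivity)] at h2
  have e : Y ^ θ' = Y ^ θ * Y ^ (θ' - θ) := by
    rw [← Real.rpow_add hY0]
    congr 1
    ring
  have h3 : (|K| + 1) * Real.log Y ^ D ≤ Y ^ (θ' - θ) := by
    rw [one_div, ← div_eq_inv_mul, le_div_iff₀ (by positivity)] at h2
    linarith
  have h4 : K ≤ |K| + 1 := by linarith [le_abs_self K]
  calc K * Y ^ θ * Real.log Y ^ D = Y ^ θ * (K * Real.log Y ^ D) := by ring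
    _ ≤ Y ^ θ * ((|K| + 1) * Real.log Y ^ D) := by gcongr
    _ ≤ Y ^ θ * Y ^ (θ' - θ) := by gcongr
    _ = _ := e.symm

/-- a power saving beats any power of the logarithm -/
theorem ev_rpow_le_Bd (K D : ℝ) {θ : ℝ} (hθ : θ < 5 / 6) (c : ℕ) :
    ∀ᶠ Y : ℝ in atTop, K * Y ^ θ * Real.log Y ^ D ≤ Bd Y c := by
  filter_upwards [lla_ev K (D + c) hθ, eventually_gt_atTop 1] with Y h hY
  have hl := Real.log_pos hY
  rw [Bd, le_div_iff₀ (pow_pos hl _), mul_assoc, ← Real.rpow_natCast, ← Real.rpow_add hl]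
  exact h

theorem ev_rpow_le (K : ℝ) {θ θ' : ℝ} (h : θ < θ') : ∀ᶠ Y : ℝ in atTop, K * Y ^ θ ≤ Y ^ θ' := by
  simpa using lla_ev K 0 h

theorem ev_log_ge (K : ℝ) : ∀ᶠ Y : ℝ in atTop, K ≤ Real.log Y := Real.tendsto_log_atTop.eventually_ge_atTop K

theorem XX_le {Y : ℝ} (hY : 1 ≤ Y) : XX Y ≤ Y := by
  calc XX Y ≤ Y ^ (1 : ℝ) := Real.rpow_le_rpow_of_exponent_le hY (by norm_num)
    _ = Y := Real.rpow_one Y

theorem Ps_eq_zero {l : ℤ} {a Y A : ℝ} {α : O → ℂ} (hα : Supp α A (2 * A)) {m : O} (hm : ¬ PSq m) :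
    Ps l a Y A α m = 0 := by
  unfold Ps
  rw [Finset.sum_eq_zero, mul_zero]
  intro x _
  by_cases h0 : α x = 0
  · rw [h0, zero_mul, zero_mul]
  · rw [f0_eq_zero fun h => hm (PSq.of_mul_left (hα x h0).1.1 h), mul_zero, zero_mul]

theorem LL_eq_pball {l : ℤ} {a Y A : ℝ} {α : O → ℂ} (hα : Supp α A (2 * A)) (φ : O → ℂ) :
    LL l a Y A α φ = ∑ m ∈ pball (XX Y), φ m * Ps l a Y A α m := by
  unfold LL
  refine Finset.sum_subset (fun m hm => ?_) fun m hm hm' => ?_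
  · rw [mem_sball] at hm
    exact mem_pball.2 ⟨hm.1, hm.2.1⟩
  · rw [Ps_eq_zero hα fun h => hm' (mem_sball.2 ⟨(mem_pball.1 hm).1, h⟩), mul_zero]

/-- the row sum against a pointwise bound for the weight -/
theorem lla_Ps (l : ℤ) (k : ℕ) : ∀ᶠ Y : ℝ in atTop, ∀ (a A : ℝ) (α : O → ℂ), Hy (1 / 100000) k Y a A α →
    ∀ (m : O) (w : ℝ), 0 ≤ w → (m ≠ 0 → ∀ x, α x ≠ 0 → LW a Y (nm (x * m)) ≤ w) →
      ‖Ps l a Y A α m‖ ≤ Y * w := by
  obtain ⟨C, hC, hd⟩ := dn_pow_le k (show (0 : ℝ) < 1 / 10 by norm_num)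
  filter_upwards [eventually_ge_atTop 1,
    ev_rpow_le 2 (show (1 / 2 + 1 / 100000 : ℝ) < 6 / 10 by norm_num),
    ev_rpow_le (33 * C) (show (66 / 100 : ℝ) < 1 by norm_num)] with Y hY h1 h2 a A α H m w hw hm
  have hY0 : 0 < Y := by linarith
  rw [Real.rpow_one] at h2
  by_cases hq : PSq m
  swap
  · rw [Ps_eq_zero H.supp hq, norm_zero]
    positivity
  have hm0 := hq.ne_zero
  have hA1 : 1 ≤ A := le_trans (Real.one_le_rpow hY (by norm_num)) H.hA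
  have hA2 : 2 * A ≤ Y ^ (6 / 10 : ℝ) := by linarith [H.hA']
  have hpt : ∀ x ∈ ball (2 * A), ‖α x * f0 (x * m) * (LW a Y (nm (x * m)) : ℂ)‖ ≤
      C * Y ^ (6 / 100 : ℝ) * 3 * w := by
    intro x hx
    by_cases h0 : α x = 0
    · rw [h0, zero_mul, zero_mul, norm_zero]
      positivity
    have e1 : ‖α x‖ ≤ C * Y ^ (6 / 100 : ℝ) := by
      refine (H.dv x).trans ((hd x (H.supp x h0).1.ne_zero).trans ?_)
      have : nm x ^ (1 / 10 : ℝ) ≤ (Y ^ (6 / 10 : ℝ)) ^ (1 / 10 : ℝ) :=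
        Real.rpow_le_rpow (nm_nonneg x) ((mem_ball.1 hx).trans hA2) (by norm_num)
      rw [← Real.rpow_mul hY0.le] at this
      norm_num at this ⊢
      gcongr
    rw [norm_mul, norm_mul, Complex.norm_real, Real.norm_of_nonneg (LW_pos _ _ _).le]
    have e2 := norm_f0_le (x * m)
    have e3 := hm hm0 x h0
    have e4 := (LW_pos a Y (nm (x * m))).le
    gcongr
  have hcard : ((ball (2 * A)).card : ℝ) ≤ 11 * Y ^ (6 / 10 : ℝ) :=
    (card_ball_le (by linarith)).trans (by linarith)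
  have e : Y ^ (6 / 10 : ℝ) * Y ^ (6 / 100 : ℝ) = Y ^ (66 / 100 : ℝ) := by
    rw [← Real.rpow_add hY0]
    norm_num
  unfold Ps
  rw [norm_mul, norm_zpow, norm_al hm0, one_zpow, one_mul]
  calc _ ≤ ∑ x ∈ ball (2 * A), ‖α x * f0 (x * m) * (LW a Y (nm (x * m)) : ℂ)‖ := norm_sum_le _ _
    _ ≤ (ball (2 * A)).card • (C * Y ^ (6 / 100 : ℝ) * 3 * w) := Finset.sum_le_card_nsmul _ _ _ hpt
    _ = (ball (2 * A)).card * (C * Y ^ (6 / 100 : ℝ) * 3 * w) := nsmul_eq_mul _ _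
    _ ≤ 11 * Y ^ (6 / 10 : ℝ) * (C * Y ^ (6 / 100 : ℝ) * 3 * w) := by gcongr
    _ = 33 * C * Y ^ (66 / 100 : ℝ) * w := by
        rw [← e]
        ring
    _ ≤ Y * w := by gcongr

/-- `‖f0‖ ≤ 3`, `LW ≤ 1`, `dn x ^ k ≤ C N x ^ (1/10)`, `card_ball_le` -/
theorem Ps_le (l : ℤ) (k : ℕ) : ∀ᶠ Y : ℝ in atTop, ∀ (a A : ℝ) (α : O → ℂ), Hy (1 / 100000) k Y a A α →
    ∀ m, ‖Ps l a Y A α m‖ ≤ Y := by
  filter_upwards [lla_Ps l k] with Y h a A α H m
  simpa using h a A α H m 1 zero_le_one fun _ _ _ => LW_le_one _ _ _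

/-- `LW_small` with `ε = 1/200`, `Z = Y` -/
theorem Ps_far (l : ℤ) (k : ℕ) (J : ℝ) : ∀ᶠ Y : ℝ in atTop, ∀ (a A : ℝ) (α : O → ℂ), Hy (1 / 100000) k Y a A α →
    ∀ m, (nm m ≤ Y ^ (49 / 100 : ℝ) ∨ Y ^ (51 / 100 : ℝ) ≤ nm m) → ‖Ps l a Y A α m‖ ≤ Y ^ (-J) := by
  obtain ⟨C, hC, hs⟩ := LW_small (J + 2) (1 / 200) (by norm_num)
  filter_upwards [lla_Ps l k, eventually_ge_atTop 1, eventually_ge_atTop C,
    ev_rpow_le 2 (show (1 / 2 + 1 / 100000 + 49 / 100 : ℝ) < 1 + -(1 / 200) by norm_num)]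
    with Y h hY hCY h1 a A α H m hm
  have hY0 : 0 < Y := by linarith
  have ha := (H.pos hY0).1
  refine (h a A α H m (C * Y ^ (-(J + 2))) (by positivity) fun hm0 x hx => ?_).trans ?_
  · obtain ⟨hx1, hx2, hx3⟩ := H.supp x hx
    refine hs a Y Y _ ha (by linarith [H.ha1]) hY hY0 (nm_pos (mul_ne_zero hx1.ne_zero hm0)) ?_
    rw [nm_mul]
    have hm1 := nm_nonneg m
    have hx0 := nm_nonneg x
    rcases hm with hm | hm
    · left
      rw [Real.rpow_add hY0, Real.rpow_add hY0 1, Real.rpow_one] at h1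
      refine le_trans ?_ h1
      have : nm x ≤ 2 * Y ^ (1 / 2 + 1 / 100000 : ℝ) := by linarith [H.hA']
      rw [← mul_assoc]
      gcongr
    · right
      calc Y * Y ^ (1 / 200 : ℝ) = Y ^ (1 + 1 / 200 : ℝ) := by
            rw [Real.rpow_add hY0, Real.rpow_one]
        _ ≤ Y ^ ((1 / 2 - 1 / 100000) + 51 / 100 : ℝ) :=
            Real.rpow_le_rpow_of_exponent_le hY (by norm_num)
        _ = Y ^ (1 / 2 - 1 / 100000 : ℝ) * Y ^ (51 / 100 : ℝ) := Real.rpow_add hY0 _ _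
        _ ≤ nm x * nm m := by
            have : Y ^ (1 / 2 - 1 / 100000 : ℝ) ≤ nm x := H.hA.trans hx2.le
            gcongr
  · have e : Y ^ (-J) = Y * (Y * Y ^ (-(J + 2))) := by
      rw [show -J = 1 + (1 + -(J + 2)) by ring, Real.rpow_add hY0, Real.rpow_add hY0, Real.rpow_one]
    rw [e]
    gcongr

/-- `∑_{N n ≤ Y} ‖f n‖ ≤ Y²` -/
theorem sum_DvP_le (k : ℕ) : ∀ᶠ Y : ℝ in atTop, ∑ n ∈ pball Y, dn n ^ k ≤ Y ^ 2 := by
  obtain ⟨C, D, -, -, h⟩ := sum_dn_pow_le k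
  filter_upwards [eventually_ge_atTop 2, lla_ev C D (show (1 : ℝ) < 2 by norm_num)] with Y hY h1
  rw [Real.rpow_one, Real.rpow_two] at h1
  exact (h Y Y (by linarith) le_rfl hY).trans h1

/-! ### Part b -/

theorem llb_sub {X Y : ℝ} (h : X ≤ Y) : sball X ⊆ pball Y := fun m hm => by
  rw [mem_sball] at hm
  exact mem_pball.2 ⟨hm.1.trans h, hm.2.1⟩

theorem llb_far {Y x : ℝ} (hY : 1 ≤ Y) (h : XX Y < x) : Y ^ (51 / 100 : ℝ) ≤ x :=
  (Real.rpow_le_rpow_of_exponent_le hY (by norm_num)).trans h.le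

theorem llb_rpow {Y : ℝ} (hY : 0 < Y) (n : ℕ) : Y ^ (-(n : ℝ)) * Y ^ n = 1 := by
  rw [Real.rpow_neg hY.le, Real.rpow_natCast]
  exact inv_mul_cancel₀ (pow_pos hY n).ne'

theorem llb_sum {k : ℕ} {X Y M : ℝ} (h : X ≤ Y) (hM : 0 ≤ M) (hs : ∑ n ∈ pball Y, dn n ^ k ≤ Y ^ 2)
    {F : O → ℂ} (hF : ∀ m ∈ sball X, ‖F m‖ ≤ M * dn m ^ k) : ‖∑ m ∈ sball X, F m‖ ≤ M * Y ^ 2 :=
  calc ‖∑ m ∈ sball X, F m‖ ≤ ∑ m ∈ sball X, M * dn m ^ k := norm_sum_le_of_le _ hF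
    _ ≤ ∑ m ∈ pball Y, M * dn m ^ k :=
      Finset.sum_le_sum_of_subset_of_nonneg (llb_sub h) fun m _ _ =>
        mul_nonneg hM (pow_nonneg (dn_nonneg m) k)
    _ ≤ M * Y ^ 2 := by rw [← Finset.mul_sum]; exact mul_le_mul_of_nonneg_left hs hM

theorem LL_triv (l : ℤ) (k k' : ℕ) : ∀ᶠ Y : ℝ in atTop, ∀ (a A : ℝ) (α : O → ℂ), Hy (1 / 100000) k Y a A α →
    ∀ (φ : O → ℂ) (M : ℝ), 0 ≤ M → (∀ m, PSq m → nm m ≤ Y → ‖φ m‖ ≤ M * dn m ^ k') →
    ‖LL l a Y A α φ‖ ≤ M * Y ^ 3 := by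
  filter_upwards [Ps_le l k, sum_DvP_le k', eventually_ge_atTop (1 : ℝ)] with Y h1 h2 hY a A α H φ M hM hφ
  have hY0 : 0 ≤ Y := by linarith
  refine (llb_sum (M := M * Y) (XX_le hY) (mul_nonneg hM hY0) h2 fun m hm => ?_).trans_eq (by ring)
  rw [mem_sball] at hm
  rw [norm_mul]
  calc ‖φ m‖ * ‖Ps l a Y A α m‖ ≤ M * dn m ^ k' * Y :=
        mul_le_mul (hφ m hm.2 (hm.1.trans (XX_le hY))) (h1 a A α H m) (norm_nonneg _)
          (mul_nonneg hM (pow_nonneg (dn_nonneg m) _))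
    _ = M * Y * dn m ^ k' := by ring

theorem LL_small (l : ℤ) (k k' : ℕ) : ∀ᶠ Y : ℝ in atTop, ∀ (a A : ℝ) (α : O → ℂ), Hy (1 / 100000) k Y a A α →
    ∀ φ : O → ℂ, DvP k' φ → (∀ m, PSq m → φ m ≠ 0 → nm m ≤ Y ^ (49 / 100 : ℝ)) → ‖LL l a Y A α φ‖ ≤ 1 := by
  filter_upwards [Ps_far l k (2 : ℕ), sum_DvP_le k', eventually_ge_atTop (1 : ℝ)] with Y h1 h2 hY a A α H φ hφ hs
  have hY0 : 0 < Y := by linarith
  have hp : 0 ≤ Y ^ (-((2 : ℕ) : ℝ)) := Real.rpow_nonneg hY0.le _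
  refine (llb_sum (XX_le hY) hp h2 fun m hm => ?_).trans_eq (llb_rpow hY0 2)
  rw [mem_sball] at hm
  by_cases h0 : φ m = 0
  · rw [h0, zero_mul, norm_zero]
    exact mul_nonneg hp (pow_nonneg (dn_nonneg m) _)
  rw [norm_mul, mul_comm]
  exact mul_le_mul (h1 a A α H m (Or.inl (hs m hm.2 h0))) (hφ m hm.2.1) (norm_nonneg _) hp

/-- `Bil = ∑_{m ∈ ball Y} φ m · Ps m`; the terms `XX Y < N m ≤ Y` are far -/
theorem Bil_LL (l : ℤ) (k : ℕ) : ∀ᶠ Y : ℝ in atTop, ∀ (a A : ℝ) (α : O → ℂ), Hy (1 / 100000) k Y a A α →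
    ∀ φ : O → ℂ, (∀ m, ‖φ m‖ ≤ 1) →
    ‖Bil a Y α (fun m => φ m * al m ^ l) (2 * A) Y - LL l a Y A α φ‖ ≤ 1 := by
  classical
  filter_upwards [Ps_far l k (2 : ℕ), eventually_ge_atTop (11 : ℝ)] with Y h1 hY' a A α H φ hφ
  have hY : 1 ≤ Y := by linarith
  have hY0 : 0 < Y := by linarith
  have hp : 0 ≤ Y ^ (-((2 : ℕ) : ℝ)) := Real.rpow_nonneg hY0.le _
  have e : Bil a Y α (fun m => φ m * al m ^ l) (2 * A) Y = ∑ m ∈ ball Y, φ m * Ps l a Y A α m := by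
    unfold Bil Ps
    rw [Finset.sum_comm]
    refine Finset.sum_congr rfl fun m _ => ?_
    rw [Finset.mul_sum, Finset.mul_sum]
    exact Finset.sum_congr rfl fun x _ => by ring
  have hsub : sball (XX Y) ⊆ ball Y := fun m hm => mem_ball.2 ((mem_sball.1 hm).1.trans (XX_le hY))
  rw [e, LL, ← Finset.sum_sdiff hsub, add_sub_cancel_right]
  calc ‖∑ m ∈ ball Y \ sball (XX Y), φ m * Ps l a Y A α m‖
      ≤ ∑ m ∈ ball Y \ sball (XX Y), Y ^ (-((2 : ℕ) : ℝ)) := by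
        refine norm_sum_le_of_le _ fun m hm => ?_
        by_cases hq : PSq m
        · have h2 : XX Y < nm m := by
            by_contra hc
            exact (Finset.mem_sdiff.1 hm).2 (mem_sball.2 ⟨not_lt.1 hc, hq⟩)
          rw [norm_mul]
          exact (mul_le_of_le_one_left (norm_nonneg _) (hφ m)).trans (h1 a A α H m (Or.inr (llb_far hY h2)))
        · rw [Ps_eq_zero H.supp hq, mul_zero, norm_zero]
          exact hp
    _ ≤ ∑ m ∈ ball Y, Y ^ (-((2 : ℕ) : ℝ)) :=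
        Finset.sum_le_sum_of_subset_of_nonneg Finset.sdiff_subset fun _ _ _ => hp
    _ ≤ Y ^ (-((2 : ℕ) : ℝ)) * Y ^ 2 := by
        rw [Finset.sum_const, nsmul_eq_mul, mul_comm]
        exact mul_le_mul_of_nonneg_left ((card_ball_le hY).trans (by nlinarith)) hp
    _ = 1 := llb_rpow hY0 2

/-- `LL_eq_pball`, `sum_cv`, `Ps_far`, `sum_DvP_le` -/
theorem sum2_LL (l : ℤ) (k k' : ℕ) : ∀ᶠ Y : ℝ in atTop, ∀ (a A : ℝ) (α : O → ℂ), Hy (1 / 100000) k Y a A α →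
    ∀ f g : O → ℂ, DvP k' f → DvP k' g →
    ‖(∑ r ∈ pball Y, ∑ b ∈ pball Y, f r * g b * Ps l a Y A α (r * b)) - LL l a Y A α (cv f g)‖ ≤ 1 := by
  classical
  filter_upwards [Ps_far l k (4 : ℕ), sum_DvP_le k', eventually_ge_atTop (1 : ℝ)] with Y h1 h2 hY a A α H f g hf hg
  have hY0 : 0 < Y := by linarith
  have hp : 0 ≤ Y ^ (-((4 : ℕ) : ℝ)) := Real.rpow_nonneg hY0.le _
  have hS : 0 ≤ ∑ n ∈ pball Y, dn n ^ k' := Finset.sum_nonneg fun n _ => pow_nonneg (dn_nonneg n) _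
  rw [LL_eq_pball H.supp, sum_cv f g _ (XX_le hY), ← Finset.sum_sub_distrib]
  calc _ ≤ ∑ r ∈ pball Y, ∑ b ∈ pball Y, Y ^ (-((4 : ℕ) : ℝ)) * (dn r ^ k' * dn b ^ k') := by
        refine norm_sum_le_of_le _ fun r hr => ?_
        rw [← Finset.sum_sub_distrib]
        refine norm_sum_le_of_le _ fun b hb => ?_
        have hd : 0 ≤ dn r ^ k' * dn b ^ k' :=
          mul_nonneg (pow_nonneg (dn_nonneg r) _) (pow_nonneg (dn_nonneg b) _)
        split_ifs with hc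
        · rw [sub_self, norm_zero]
          exact mul_nonneg hp hd
        · rw [sub_zero, norm_mul, norm_mul, mul_comm]
          exact mul_le_mul (h1 a A α H _ (Or.inr (llb_far hY (not_le.1 hc))))
            (mul_le_mul (hf r (mem_pball.1 hr).2) (hg b (mem_pball.1 hb).2) (norm_nonneg _)
              (pow_nonneg (dn_nonneg r) _)) (by positivity) hp
    _ = Y ^ (-((4 : ℕ) : ℝ)) * ((∑ n ∈ pball Y, dn n ^ k') * ∑ n ∈ pball Y, dn n ^ k') := by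
        rw [Finset.sum_mul_sum, Finset.mul_sum]
        exact Finset.sum_congr rfl fun r _ => by rw [Finset.mul_sum]
    _ ≤ Y ^ (-((4 : ℕ) : ℝ)) * (Y ^ 2 * Y ^ 2) :=
        mul_le_mul_of_nonneg_left (mul_le_mul h2 h2 hS (by positivity)) hp
    _ = 1 := by rw [← llb_rpow hY0 4]; ring

/-- `sum_cv` twice (first `X = XX Y`, `X' = Y`, then `X = X' = Y`) -/
theorem sum3_LL (l : ℤ) (k k' : ℕ) : ∀ᶠ Y : ℝ in atTop, ∀ (a A : ℝ) (α : O → ℂ), Hy (1 / 100000) k Y a A α →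
    ∀ f g h : O → ℂ, DvP k' f → DvP k' g → DvP k' h →
    ‖(∑ r ∈ pball Y, ∑ b ∈ pball Y, ∑ d ∈ pball Y, f r * g b * h d * Ps l a Y A α (r * b * d)) -
      LL l a Y A α (cv (cv f g) h)‖ ≤ 1 := by
  classical
  filter_upwards [Ps_far l k (6 : ℕ), sum_DvP_le k', eventually_ge_atTop (1 : ℝ)]
    with Y h1 h2 hY a A α H f g h hf hg hh
  have hY0 : 0 < Y := by linarith
  have hp : 0 ≤ Y ^ (-((6 : ℕ) : ℝ)) := Real.rpow_nonneg hY0.le _
  have hS : 0 ≤ ∑ n ∈ pball Y, dn n ^ k' := Finset.sum_nonneg fun n _ => pow_nonneg (dn_nonneg n) _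
  have e : LL l a Y A α (cv (cv f g) h) = ∑ r ∈ pball Y, ∑ b ∈ pball Y, ∑ d ∈ pball Y,
      if nm (r * b) ≤ Y ∧ nm (r * b * d) ≤ XX Y then f r * g b * h d * Ps l a Y A α (r * b * d) else 0 := by
    rw [LL_eq_pball H.supp, sum_cv (cv f g) h _ (XX_le hY)]
    have e1 : ∀ n ∈ pball Y, (∑ d ∈ pball Y,
        if nm (n * d) ≤ XX Y then cv f g n * h d * Ps l a Y A α (n * d) else 0) =
        cv f g n * ∑ d ∈ pball Y, if nm (n * d) ≤ XX Y then h d * Ps l a Y A α (n * d) else 0 := by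
      intro n _
      rw [Finset.mul_sum]
      refine Finset.sum_congr rfl fun d _ => ?_
      split_ifs <;> ring
    rw [Finset.sum_congr rfl e1, sum_cv f g _ (le_refl Y)]
    refine Finset.sum_congr rfl fun r _ => Finset.sum_congr rfl fun b _ => ?_
    by_cases hc : nm (r * b) ≤ Y
    · simp only [hc, if_true, true_and, Finset.mul_sum]
      refine Finset.sum_congr rfl fun d _ => ?_
      split_ifs <;> ring
    · simp [hc]
  rw [e, ← Finset.sum_sub_distrib]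
  calc _ ≤ ∑ r ∈ pball Y, ∑ b ∈ pball Y, ∑ d ∈ pball Y,
        Y ^ (-((6 : ℕ) : ℝ)) * (dn r ^ k' * dn b ^ k' * dn d ^ k') := by
        refine norm_sum_le_of_le _ fun r hr => ?_
        rw [← Finset.sum_sub_distrib]
        refine norm_sum_le_of_le _ fun b hb => ?_
        rw [← Finset.sum_sub_distrib]
        refine norm_sum_le_of_le _ fun d hd => ?_
        have hd1 : 0 ≤ dn r ^ k' * dn b ^ k' :=
          mul_nonneg (pow_nonneg (dn_nonneg r) _) (pow_nonneg (dn_nonneg b) _)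
        have hd2 : 0 ≤ dn r ^ k' * dn b ^ k' * dn d ^ k' := mul_nonneg hd1 (pow_nonneg (dn_nonneg d) _)
        split_ifs with hc
        · rw [sub_self, norm_zero]
          exact mul_nonneg hp hd2
        · have hx : XX Y < nm (r * b * d) := by
            by_contra hc'
            refine hc ⟨?_, not_lt.1 hc'⟩
            refine (nm_le_of_dvd (dvd_mul_right _ d) ?_).trans ((not_lt.1 hc').trans (XX_le hY))
            exact (((mem_pball.1 hr).2.mul (mem_pball.1 hb).2).mul (mem_pball.1 hd).2).ne_zero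
          rw [sub_zero, norm_mul, norm_mul, norm_mul, mul_comm]
          exact mul_le_mul (h1 a A α H _ (Or.inr (llb_far hY hx)))
            (mul_le_mul (mul_le_mul (hf r (mem_pball.1 hr).2) (hg b (mem_pball.1 hb).2) (norm_nonneg _)
              (pow_nonneg (dn_nonneg r) _)) (hh d (mem_pball.1 hd).2) (norm_nonneg _) hd1) (by positivity) hp
    _ = Y ^ (-((6 : ℕ) : ℝ)) * ((∑ n ∈ pball Y, dn n ^ k') * (∑ n ∈ pball Y, dn n ^ k') *
          ∑ n ∈ pball Y, dn n ^ k') := by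
        rw [Finset.sum_mul_sum, Finset.sum_mul, Finset.mul_sum]
        refine Finset.sum_congr rfl fun r _ => ?_
        rw [Finset.sum_mul, Finset.mul_sum]
        refine Finset.sum_congr rfl fun b _ => ?_
        rw [Finset.mul_sum, Finset.mul_sum]
    _ ≤ Y ^ (-((6 : ℕ) : ℝ)) * (Y ^ 2 * Y ^ 2 * Y ^ 2) :=
        mul_le_mul_of_nonneg_left
          (mul_le_mul (mul_le_mul h2 h2 hS (by positivity)) h2 hS (by positivity)) hp
    _ = 1 := by rw [← llb_rpow hY0 6]; ring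

end Crest.Agent.R12.BH
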