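import Crest.Agent.R12.BH.Cv

/-! Row 12, block BH: Mellin separation and Linnik's identity.  Prefix for helper lemmas: `lia_` (part a), `lib_` (part b). -/

set_option autoImplicit false

namespace Crest.Agent.R12.BH

open Crest.Agent.R17 Filter MeasureTheory

/-! ### Part a -/

theorem lia_cpow {x y : ℝ} (hy : 0 < y) (hx : 0 < x) (κ : ℕ) (s : ℂ) :
    (((y / x) ^ κ : ℝ) : ℂ) ^ (-s) = (y : ℂ) ^ (-(κ * s)) * (x : ℂ) ^ (κ * s) := by
  have h : ∀ {t : ℝ}, 0 < t → ∀ w : ℂ, (t : ℂ) ^ w = Complex.exp (Real.log t * w) := fun ht w => by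
    rw [Complex.cpow_def_of_ne_zero (Complex.ofReal_ne_zero.2 ht.ne'), Complex.ofReal_log ht.le]
  rw [h hy, h hx, h (pow_pos (div_pos hy hx) κ), ← Complex.exp_add, Real.log_pow, Real.log_div hy.ne' hx.ne']
  congr 1
  push_cast
  ring

/-- `gx κ y x = exp(-(y/x)^κ) = VI σ (Γ(s) ((y/x)^κ)^(-s))` (`exp_neg_eq_VI`), `σ = 1/(κ L)`,
`((y/x)^κ)^(-s) = y^(-κ s) x^(κ s)`, `‖y^(-κ s)‖ ≤ 1`; `VI_sum`, `norm_VI_le`, `norm_Gamma_le_exp`,
`Γ(σ) = Γ(σ+1)/σ ≤ 1/σ` (or any constant times `1/σ`), `gA_integrable_exp_poly`, `1 + κ|t| ≤ κ (1 + |t|)`. -/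
theorem mel (κ N : ℕ) (hκ : 1 ≤ κ) : ∃ C : ℝ, 0 ≤ C ∧ ∀ (X L y E : ℝ) (Λ : (O → ℂ) → ℂ) (f : O → ℂ), FF X Λ →
    1 ≤ L → 1 ≤ y → (∀ z : ℂ, z.re = 1 / L → ‖Λ (tw z f)‖ ≤ E * (1 + |z.im|) ^ N) →
    ‖Λ (gm κ y f)‖ ≤ C * L * E := by
  obtain ⟨_, K, -, hK⟩ := gamb_bdd one_pos 2
  replace hK := fun x hx => (hK x hx).2
  have hK0 : 0 ≤ K := (Real.Gamma_pos_of_pos one_pos).le.trans (hK 1 ⟨le_rfl, one_le_two⟩)
  have hI : 0 ≤ ∫ t : ℝ, Real.exp (-|t|) * (1 + |t|) ^ (N : ℝ) := integral_nonneg fun t => by positivity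
  refine ⟨1 / (2 * Real.pi) * (K * κ * 2 * κ ^ N * ∫ t : ℝ, Real.exp (-|t|) * (1 + |t|) ^ (N : ℝ)),
    by positivity, ?_⟩
  rintro X L y E Λ f ⟨c, hc⟩ hL hy h
  have hκ' : (1 : ℝ) ≤ κ := by exact_mod_cast hκ
  have hE : 0 ≤ E := by simpa using (norm_nonneg _).trans (h ((1 / L : ℝ) : ℂ) (Complex.ofReal_re _))
  have h1 : 1 ≤ κ * L := one_le_mul_of_one_le_of_one_le hκ' hL
  have hσ : 0 < 1 / (κ * L) := by positivity
  have hσ1 : 1 / (κ * L) ≤ 1 := (div_le_one (by positivity)).2 h1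
  have hG : Real.Gamma (1 / (κ * L)) ≤ K * (κ * L) := by
    have h2 := hK (1 / (κ * L) + 1) ⟨by linarith, by linarith⟩
    rwa [Real.Gamma_add_one hσ.ne', one_div_mul_eq_div, div_le_iff₀ (by positivity)] at h2
  have hn : ∀ n ∈ sball X, 0 < nm n := fun n hn => nm_pos (mem_sball.1 hn).2.ne_zero
  have hp : ∀ n ∈ sball X, 0 < (y / nm n) ^ κ := fun n hn' => pow_pos (div_pos (by linarith) (hn n hn')) κ
  have e : Λ (gm κ y f) = VI (1 / (κ * L)) fun s =>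
      Complex.Gamma s * (y : ℂ) ^ (-(κ * s)) * Λ (tw (κ * s) f) := by
    rw [hc, VI_congr (G := fun s => ∑ n ∈ sball X, c n * f n *
      (Complex.Gamma s * (((y / nm n) ^ κ : ℝ) : ℂ) ^ (-s))) fun s _ => ?_,
      VI_sum _ fun n hn' => ?_]
    swap
    · exact (exp_neg_eq_VI hσ (hp n hn')).1.const_mul _
    · refine Finset.sum_congr rfl fun n hn' => ?_
      rw [VI_const_mul, ← (exp_neg_eq_VI hσ (hp n hn')).2, gm, gx, mul_assoc]
    · rw [hc, Finset.mul_sum]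
      refine Finset.sum_congr rfl fun n hn' => ?_
      rw [lia_cpow (by linarith) (hn n hn'), tw]
      ring
  rw [e]
  refine (norm_VI_le ((gA_integrable_exp_poly N).const_mul (K * κ * 2 * κ ^ N * (L * E))) fun t => ?_).trans_eq ?_
  · have h2 := norm_Gamma_le_exp (s := ((1 / (κ * L) : ℝ) : ℂ) + t * Complex.I) (by simpa using hσ)
    have h3 := h (κ * (((1 / (κ * L) : ℝ) : ℂ) + t * Complex.I)) (by
      simp only [Complex.mul_re, Complex.add_re, Complex.add_im, Complex.natCast_re, Complex.natCast_im,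
        Complex.ofReal_re, Complex.ofReal_im, Complex.I_re, Complex.I_im]
      field_simp
      ring)
    have h4 : ‖(y : ℂ) ^ (-(κ * (((1 / (κ * L) : ℝ) : ℂ) + t * Complex.I)))‖ ≤ 1 := by
      rw [Complex.norm_cpow_eq_rpow_re_of_pos (by linarith)]
      refine Real.rpow_le_one_of_one_le_of_nonpos hy ?_
      simp only [Complex.neg_re, Complex.mul_re, Complex.add_re, Complex.add_im, Complex.natCast_re,
        Complex.natCast_im, Complex.ofReal_re, Complex.ofReal_im, Complex.I_re, Complex.I_im, mul_zero,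
        zero_mul, sub_zero, add_zero, neg_nonpos]
      positivity
    have h5 : (2 : ℝ) ^ (1 / (κ * L)) ≤ 2 :=
      (Real.rpow_le_rpow_of_exponent_le one_le_two hσ1).trans_eq (Real.rpow_one 2)
    simp only [Complex.mul_re, Complex.mul_im, Complex.add_re, Complex.add_im, Complex.natCast_re,
      Complex.natCast_im, Complex.ofReal_re, Complex.ofReal_im, Complex.I_re, Complex.I_im, mul_zero,
      zero_mul, sub_zero, add_zero, mul_one, zero_add, abs_mul, Nat.abs_cast] at h2 h3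
    have h6 : 1 + κ * |t| ≤ κ * (1 + |t|) := by linarith
    rw [norm_mul, norm_mul, Real.rpow_natCast]
    calc _ ≤ K * (κ * L) * 2 * Real.exp (-|t|) * 1 * (E * (κ * (1 + |t|)) ^ N) := by
          gcongr
          · exact h2.trans (by gcongr)
          · exact h3.trans (by gcongr)
      _ = _ := by rw [mul_pow]; ring
  · rw [integral_const_mul]
    ring

theorem FF.sp {X Z E y : ℝ} {κ J : ℕ} {Λ : (O → ℂ) → ℂ} (h : FF X Λ) {f : O → ℂ} (hf : Sp Z J f) (hJ : J ≤ 3)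
    (hE : ∀ j, j ≤ J → ‖Λ (gm κ y (ps Z j))‖ ≤ E) : ‖Λ (gm κ y f)‖ ≤ 12 * E := by
  obtain ⟨c, hc, hf⟩ := hf
  have e : gm κ y f = fun n => ∑ j ∈ Finset.range (J + 1), c j * gm κ y (ps Z j) n := by
    funext n
    simp only [gm, hf, Finset.sum_mul, mul_assoc]
  have hE0 : 0 ≤ E := (norm_nonneg _).trans (hE 0 (Nat.zero_le _))
  rw [e, h.sum]
  calc _ ≤ ∑ j ∈ Finset.range (J + 1), 3 * E := by
        refine norm_sum_le_of_le _ fun j hj => ?_
        rw [norm_mul]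
        exact mul_le_mul (hc j) (hE j (Nat.lt_succ_iff.1 (Finset.mem_range.1 hj))) (norm_nonneg _)
          (by norm_num)
    _ = ((J : ℝ) + 1) * (3 * E) := by simp
    _ ≤ 4 * (3 * E) := by
        have : (J : ℝ) ≤ 3 := by exact_mod_cast hJ
        gcongr
        linarith
    _ = 12 * E := by ring

theorem sp_r1 (Z : ℝ) : Sp Z 1 (r1 Z) := by
  refine ⟨fun j => if j = 0 then -1 else 1, fun j => ?_, fun m => ?_⟩
  · dsimp only
    split_ifs <;> norm_num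
  · simp [Finset.sum_range_succ, r1]
    ring

theorem sp_r2 (Z : ℝ) : Sp Z 2 (r2 Z) := by
  refine ⟨fun j => if j = 1 then -2 else 1, fun j => ?_, fun m => ?_⟩
  · dsimp only
    split_ifs <;> norm_num
  · simp [Finset.sum_range_succ, r2]
    ring

theorem sp_r3 (Z : ℝ) : Sp Z 3 (r3 Z) := by
  refine ⟨fun j => if j = 0 then -11 / 6 else if j = 1 then 3 else if j = 2 then -3 / 2 else 1 / 3,
    fun j => ?_, fun m => ?_⟩
  · dsimp only
    split_ifs <;> norm_num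
  · simp [Finset.sum_range_succ, r3]
    ring

/-- either all primes of `m` exceed `Z`, or `gy_le_gx` -/
theorem gy_sub_gr {κ : ℕ} (hκ : 1 ≤ κ) {y Z : ℝ} (hZ : 0 < Z) (hy : Z ≤ y) (m : O) :
    ‖(gy κ y m : ℂ) - gr κ y Z m‖ ≤ Real.exp (-(y / Z)) := by
  classical
  by_cases hm : ∀ p ∈ pfs m, Z < (nN p : ℝ)
  · have : gr κ y Z m = gy κ y m := by
      rw [gr, mf, gy, Complex.ofReal_prod]
      exact Finset.prod_congr rfl fun p hp => by rw [if_pos (hm p hp)]; rfl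
    rw [this, sub_self, norm_zero]
    exact (Real.exp_pos _).le
  · push Not at hm
    obtain ⟨p, hp, hpZ⟩ := hm
    have : gr κ y Z m = 0 := by
      rw [gr, mf]
      exact Finset.prod_eq_zero hp (by rw [if_neg (not_lt.2 hpZ)])
    have hy0 : 0 ≤ y := (hZ.trans_le hy).le
    rw [this, sub_zero, Complex.norm_real, Real.norm_eq_abs, abs_of_pos (gy_pos κ y m)]
    refine (gy_le_gx κ hy0 hp).trans ?_
    rw [gx, Real.exp_le_exp, neg_le_neg_iff]
    have hp0 : 0 < nm p := lt_of_lt_of_le one_pos (one_le_nm (Finset.mem_filter.1 hp).2.ne_zero)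
    have h1 : 1 ≤ y / Z := (one_le_div hZ).2 hy
    have h2 : y / Z ≤ y / nm p := div_le_div_of_nonneg_left hy0 hp0 hpZ
    exact h2.trans (le_self_pow₀ (h1.trans h2) (by omega))

/-! ### Part b -/

theorem lib_nd {p q : O} (hp : Prime p ∧ Prim p) (hq : Prime q ∧ Prim q) (h : p ≠ q) : ¬ p ∣ q :=
  hp.1.coprime_iff_not_dvd.1 (hp.2.coprime_of_ne hq.2 hp.1 hq.1 h)

theorem lib_nd2 {p q r : O} (hp : Prime p ∧ Prim p) (hq : Prime q ∧ Prim q) (hr : Prime r ∧ Prim r)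
    (h : p ≠ q) (h' : p ≠ r) : ¬ p ∣ q * r := fun hd =>
  (hp.1.dvd_or_dvd hd).elim (lib_nd hp hq h) (lib_nd hp hr h')

theorem lib_cv1 (f g : O → ℂ) {p : O} (hp : Prime p ∧ Prim p) : cv f g p = f p * g 1 + f 1 * g p := by
  have := cv_prime_mul f g hp.1 hp.2 prim_one hp.1.not_dvd_one
  simpa only [cv_one, mul_one] using this

theorem lib_cv2 (f g : O → ℂ) {p q : O} (hp : Prime p ∧ Prim p) (hq : Prime q ∧ Prim q) (h : p ≠ q) :
    cv f g (p * q) = f (p * q) * g 1 + f p * g q + (f q * g p + f 1 * g (p * q)) := by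
  rw [cv_prime_mul f g hp.1 hp.2 hq.2 (lib_nd hp hq h), lib_cv1 _ _ hq, lib_cv1 _ _ hq, mul_one]

theorem lib_cv3 (f g : O → ℂ) {p q r : O} (hp : Prime p ∧ Prim p) (hq : Prime q ∧ Prim q)
    (hr : Prime r ∧ Prim r) (h : p ≠ q) (h' : p ≠ r) (h'' : q ≠ r) :
    cv f g (p * (q * r)) = f (p * (q * r)) * g 1 + f (p * q) * g r + (f (p * r) * g q + f p * g (q * r)) +
      (f (q * r) * g p + f q * g (p * r) + (f r * g (p * q) + f 1 * g (p * (q * r)))) := by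
  rw [cv_prime_mul f g hp.1 hp.2 (hq.2.mul hr.2) (lib_nd2 hp hq hr h h'), lib_cv2 _ _ hq hr h'',
    lib_cv2 _ _ hq hr h'', mul_one]

theorem lib_mf1 (φ : ℕ → ℂ) {p : O} (hp : Prime p ∧ Prim p) : mf φ p = φ (nN p) := by
  rw [mf, pfs_prime hp.1 hp.2, Finset.prod_singleton]

theorem lib_mf2 (φ : ℕ → ℂ) {p q : O} (hp : Prime p ∧ Prim p) (hq : Prime q ∧ Prim q) (h : p ≠ q) :
    mf φ (p * q) = φ (nN p) * φ (nN q) := by
  rw [mf_prime_mul φ hp.1 hp.2 hq.1.ne_zero (lib_nd hp hq h), lib_mf1 φ hq]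

theorem lib_mf3 (φ : ℕ → ℂ) {p q r : O} (hp : Prime p ∧ Prim p) (hq : Prime q ∧ Prim q)
    (hr : Prime r ∧ Prim r) (h : p ≠ q) (h' : p ≠ r) (h'' : q ≠ r) :
    mf φ (p * (q * r)) = φ (nN p) * (φ (nN q) * φ (nN r)) := by
  rw [mf_prime_mul φ hp.1 hp.2 (mul_ne_zero hq.1.ne_zero hr.1.ne_zero) (lib_nd2 hp hq hr h h'),
    lib_mf2 φ hq hr h'']

/-- vanishes on the multiples of `p` -/
def libK (p : O) (f : O → ℂ) : Prop := ∀ a, Prim a → p ∣ a → f a = 0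

theorem libK.cv {p : O} (hp : Prime p) {f g : O → ℂ} (hf : libK p f) (hg : libK p g) : libK p (cv f g) := by
  intro m _ hm
  by_contra h
  obtain ⟨a, b, ha, hb, rfl, h1, h2⟩ := cv_ne_zero h
  exact (hp.dvd_or_dvd hm).elim (fun h => h1 (hf a ha h)) fun h => h2 (hg b hb h)

theorem libK.gm {p : O} {f : O → ℂ} (hf : libK p f) (κ : ℕ) (y : ℝ) : libK p (gm κ y f) :=
  fun a ha h => by rw [BH.gm, hf a ha h, zero_mul]

theorem libK_mf {p : O} (hp : Prime p ∧ Prim p) {φ : ℕ → ℂ} (h : φ (nN p) = 0) : libK p (mf φ) :=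
  fun _ ha hd => Finset.prod_eq_zero ((mem_pfs ha.ne_zero).2 ⟨hp.1, hp.2, hd⟩) h

/-- If a prime `p ∣ m` has `N p ≤ Z` every term vanishes (`cv_ne_zero`; `ps Z j a = 0` when `p ∣ a`).  Otherwise `m` has at
most three primes (`N m = ∏ N p`), `m = 1, p, p q, p q r`; expand with `cv_prime_mul`, `cv_one`, `mf_prime_mul`, `mf_one`. -/
theorem linnik (κ : ℕ) (y : ℝ) {X Z : ℝ} (hZ : 1 ≤ Z) (hX : X ≤ Z ^ 4) :
    EqS X (gr κ y Z) fun m => ps Z 0 m + gm κ y (r3 Z) m + 1 / 2 * cv (gm κ y (r1 Z)) (gm κ y (r1 Z)) m -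
      1 / 2 * cv (gm κ y (r1 Z)) (gm κ y (r2 Z)) m +
      1 / 6 * cv (gm κ y (r1 Z)) (cv (gm κ y (r1 Z)) (gm κ y (r1 Z))) m := by
  classical
  intro m hm hmX
  by_cases hr : ∀ p ∈ pfs m, Z < (nN p : ℝ)
  swap
  · push Not at hr
    obtain ⟨p, hp, hpZ⟩ := hr
    obtain ⟨h1, h2, h3⟩ := pra_of_mem_pfs hp
    have k0 : ∀ j, libK p (ps Z j) := fun j => libK_mf ⟨h1, h2⟩ (if_neg (not_lt.2 hpZ))
    have k1 : libK p (gm κ y (r1 Z)) := libK.gm (fun a ha h => by simp [r1, k0 _ a ha h]) κ y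
    have k2 : libK p (gm κ y (r2 Z)) := libK.gm (fun a ha h => by simp [r2, k0 _ a ha h]) κ y
    have k3 : libK p (gm κ y (r3 Z)) := libK.gm (fun a ha h => by simp [r3, k0 _ a ha h]) κ y
    have k4 : libK p (gr κ y Z) := libK_mf ⟨h1, h2⟩ (if_neg (not_lt.2 hpZ))
    simp only [k0 0 m hm.1 h3, k3 m hm.1 h3, k4 m hm.1 h3, (k1.cv h1 k1) m hm.1 h3, (k1.cv h1 k2) m hm.1 h3,
      (k1.cv h1 (k1.cv h1 k1)) m hm.1 h3]
    simp
  have hprod : m = ∏ p ∈ pfs m, p := (hm.1.rad_eq hm.2).symm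
  have hpp : ∀ p ∈ pfs m, Prime p ∧ Prim p := fun p hp => ⟨(pra_of_mem_pfs hp).1, (pra_of_mem_pfs hp).2.1⟩
  have hcard : (pfs m).card < 4 := by
    by_contra hc
    have h1 : ∏ _p ∈ pfs m, Z < ∏ p ∈ pfs m, nm p :=
      Finset.prod_lt_prod_of_nonempty (fun _ _ => by linarith) hr (Finset.card_pos.1 (by omega))
    rw [Finset.prod_const, ← nm_prod, ← hprod] at h1
    linarith [pow_le_pow_right₀ hZ (not_lt.1 hc)]
  generalize pfs m = S at hr hprod hpp hcard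
  subst hprod
  obtain h | h | h | h : S.card = 0 ∨ S.card = 1 ∨ S.card = 2 ∨ S.card = 3 := by omega
  · rw [Finset.card_eq_zero.1 h, Finset.prod_empty]
    simp only [cv_one, gm, r1, r2, r3, ps, gr, mf_one]
    ring
  · obtain ⟨p, rfl⟩ := Finset.card_eq_one.1 h
    have hp := hpp p (by simp)
    have zp := hr p (by simp)
    rw [Finset.prod_singleton]
    simp only [lib_cv1 _ _ hp, cv_one, gm, r1, r2, r3, ps, gr, mf_one, lib_mf1 _ hp, if_pos zp, nm]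
    push_cast
    ring
  · obtain ⟨p, q, hpq, rfl⟩ := Finset.card_eq_two.1 h
    have hp := hpp p (by simp)
    have hq := hpp q (by simp)
    have zp := hr p (by simp)
    have zq := hr q (by simp)
    rw [Finset.prod_pair hpq]
    simp only [lib_cv2 _ _ hp hq hpq, lib_cv1 _ _ hp, lib_cv1 _ _ hq, cv_one, gm, r1, r2, r3, ps, gr, mf_one,
      lib_mf1 _ hp, lib_mf1 _ hq, lib_mf2 _ hp hq hpq, if_pos zp, if_pos zq, nm]
    push_cast
    ring
  · obtain ⟨p, q, r, hpq, hpr, hqr, rfl⟩ := Finset.card_eq_three.1 h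
    have hp := hpp p (by simp)
    have hq := hpp q (by simp)
    have hr' := hpp r (by simp)
    have zp := hr p (by simp)
    have zq := hr q (by simp)
    have zr := hr r (by simp)
    rw [Finset.prod_insert (by simp [hpq, hpr]), Finset.prod_pair hqr]
    simp only [lib_cv3 _ _ hp hq hr' hpq hpr hqr, lib_cv2 _ _ hp hq hpq, lib_cv2 _ _ hp hr' hpr,
      lib_cv2 _ _ hq hr' hqr, lib_cv1 _ _ hp, lib_cv1 _ _ hq, lib_cv1 _ _ hr', cv_one, gm, r1, r2, r3, ps, gr,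
      mf_one, lib_mf1 _ hp, lib_mf1 _ hq, lib_mf1 _ hr', lib_mf2 _ hp hq hpq, lib_mf2 _ hp hr' hpr,
      lib_mf2 _ hq hr' hqr, lib_mf3 _ hp hq hr' hpq hpr hqr, if_pos zp, if_pos zq, if_pos zr, nm]
    push_cast
    ring

end Crest.Agent.R12.BH
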