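import Crest.Agent.R12.BH.Two
import Crest.Agent.R12.BH.Core
import Crest.Agent.R12.BH.Lin

/-! Row 12, block BH: `stBar`.  Prefix for helper lemmas: `maa_` (part a), `mab_` (part b). -/

set_option autoImplicit false

namespace Crest.Agent.R12.BH

open Crest.Agent.R17 Filter

/-! ### Part a -/

theorem maa_b {b : ℕ} (h : b ≤ 1) : (b : ℂ) = 0 ∨ (b : ℂ) = 1 := by
  interval_cases b <;> simp

theorem maa_e1 (X Z : ℝ) (b₁ b₂ b₃ : ℕ) (z : ℂ) :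
    EqS X (tw z (ps Z (b₁ + b₂ + b₃))) (co Z b₁ b₂ b₃ z z z) :=
  (tw_mf X z _).trans (mf_congr fun n _ _ => by
    split_ifs
    · push_cast; ring
    · rw [zero_mul])

theorem maa_e2 (X Z : ℝ) (b₁ b₂ b₃ : ℕ) (z₁ z₂ : ℂ) :
    EqS X (cv (tw z₁ (ps Z b₁)) (tw z₂ (ps Z (b₂ + b₃)))) (co Z b₁ b₂ b₃ z₁ z₂ z₂) :=
  (((tw_mf X z₁ _).cv (tw_mf X z₂ _)).trans (cv_mf X _ _)).trans (mf_congr fun n _ _ => by
    split_ifs
    · push_cast; ring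
    · simp)

theorem maa_e3 (X Z : ℝ) (b₁ b₂ b₃ : ℕ) (z₁ z₂ z₃ : ℂ) :
    EqS X (cv (tw z₁ (ps Z b₁)) (cv (tw z₂ (ps Z b₂)) (tw z₃ (ps Z b₃)))) (co Z b₁ b₂ b₃ z₁ z₂ z₃) :=
  (((tw_mf X z₁ _).cv (((tw_mf X z₂ _).cv (tw_mf X z₃ _)).trans (cv_mf X _ _))).trans
    (cv_mf X _ _)).trans (mf_congr fun n _ _ => by
    split_ifs
    · ring
    · simp)

/-- `tw_mf`, `cv_mf`, `mf_congr` turn `tw z₁ (ps i) ⋆ tw z₂ (ps j) …` into `co` with `bᵢ ∈ {0,1}` (repeat a twist when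
`j ≥ 2`); `T = ∏ (1 + |Im zᵢ|)`; `mel` once, twice, three times with `L = log Y` (`FF.cv_left`, `FF.cv_right`);
`CoreL` with `c + 3`, `log_mul_Bd`. -/
theorem shapeL {l : ℤ} {η : ℝ} (h : CoreL l η) : ShapeL l η := by
  intro κ k c hκ
  obtain ⟨C, N, hC, H⟩ := h k (c + 3)
  obtain ⟨D, hD, M⟩ := mel κ N hκ
  refine ⟨(1 + D) ^ 3 * C, by positivity, ?_⟩
  filter_upwards [H, ev_log_ge 1, eventually_gt_atTop 1] with Y HY hL hY a A α hy y hy1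
  have hB := Bd_pos hY (c + 3)
  have hF := ff_LL l a Y A α
  set L := Real.log Y with hLd
  set E := C * Bd Y (c + 3) with hE
  have hE0 : 0 ≤ E := by positivity
  have K : ∀ (b₁ b₂ b₃ : ℕ) (z₁ z₂ z₃ : ℂ) (T : ℝ), b₁ ≤ 1 → b₂ ≤ 1 → b₃ ≤ 1 → z₁.re = 1 / L →
      z₂.re = 1 / L → z₃.re = 1 / L → 1 + |z₁.im| ≤ T → 1 + |z₂.im| ≤ T → 1 + |z₃.im| ≤ T →
      ‖LL l a Y A α (co (zz Y) b₁ b₂ b₃ z₁ z₂ z₃)‖ ≤ E * T ^ N := by
    intro b₁ b₂ b₃ z₁ z₂ z₃ T h1 h2 h3 r1 r2 r3 t1 t2 t3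
    have az : ∀ z : ℂ, z.re = 1 / L → 1 + |z.im| ≤ T → Az Y T z := fun z r t =>
      ⟨by rw [r]; positivity, r.le, by linarith⟩
    refine (HY a A α hy b₁ b₂ b₃ z₁ z₂ z₃ T (by linarith [abs_nonneg z₁.im]) (maa_b h1) (maa_b h2)
      (maa_b h3) (az _ r1 t1) (az _ r2 t2) (az _ r3 t3)).trans_eq ?_
    rw [hE]
    ring
  have fin : ∀ j : ℕ, j ≤ 3 → (D * L) ^ j * E ≤ (1 + D) ^ 3 * C * Bd Y c := by
    intro j hj
    have e1 : (D * L) ^ j ≤ ((1 + D) * L) ^ 3 :=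
      (pow_le_pow_left₀ (by positivity) (by nlinarith) j).trans
        (pow_le_pow_right₀ (by nlinarith) hj)
    refine (mul_le_mul_of_nonneg_right e1 hE0).trans_eq ?_
    rw [hE, ← log_mul_Bd hY c 3]
    ring
  have o : ∀ z : ℂ, 1 ≤ 1 + |z.im| := fun z => by linarith [abs_nonneg z.im]
  have o' : ∀ z : ℂ, 0 ≤ 1 + |z.im| := fun z => by positivity
  refine ⟨fun j hj => ?_, fun i j hi hj => ?_, fun g i j hg hi hj => ?_⟩
  · obtain ⟨b₁, b₂, b₃, h1, h2, h3, rfl⟩ : ∃ b₁ b₂ b₃, b₁ ≤ 1 ∧ b₂ ≤ 1 ∧ b₃ ≤ 1 ∧ j = b₁ + b₂ + b₃ :=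
      ⟨min j 1, min (j - 1) 1, j - 2, by omega, by omega, by omega, by omega⟩
    refine le_trans (M _ L y E _ _ hF hL hy1 fun z r => ?_) (le_trans (le_of_eq (by ring)) (fin 1 (by omega)))
    rw [hF.congr (maa_e1 _ _ b₁ b₂ b₃ z)]
    exact K _ _ _ _ _ _ _ h1 h2 h3 r r r le_rfl le_rfl le_rfl
  · obtain ⟨b₂, b₃, h2, h3, rfl⟩ : ∃ b₂ b₃, b₂ ≤ 1 ∧ b₃ ≤ 1 ∧ j = b₂ + b₃ :=
      ⟨min j 1, j - 1, by omega, by omega, by omega⟩
    refine le_trans (M _ L y (D * L * E) _ _ (hF.cv_left _) hL hy1 fun z₁ r₁ => ?_)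
      (le_trans (le_of_eq (by ring)) (fin 2 (by omega)))
    refine le_trans (M _ L y (E * (1 + |z₁.im|) ^ N) _ _ (hF.cv_right _) hL hy1 fun z₂ r₂ => ?_)
      (le_of_eq (by ring))
    rw [hF.congr (maa_e2 _ _ i b₂ b₃ z₁ z₂), mul_assoc, ← mul_pow]
    exact K _ _ _ _ _ _ _ hi h2 h3 r₁ r₂ r₂ (le_mul_of_one_le_right (o' _) (o _))
      (le_mul_of_one_le_left (o' _) (o _)) (le_mul_of_one_le_left (o' _) (o _))
  · refine le_trans (M _ L y (D * L * (D * L * E)) _ _ (hF.cv_left _) hL hy1 fun z₁ r₁ => ?_)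
      (le_trans (le_of_eq (by ring)) (fin 3 le_rfl))
    refine le_trans (M _ L y (D * L * E * (1 + |z₁.im|) ^ N) _ _ ((hF.cv_right _).cv_left _) hL hy1
      fun z₂ r₂ => ?_) (le_of_eq (by ring))
    refine le_trans (M _ L y (E * (1 + |z₁.im|) ^ N * (1 + |z₂.im|) ^ N) _ _
      ((hF.cv_right _).cv_right _) hL hy1 fun z₃ r₃ => ?_) (le_of_eq (by ring))
    rw [hF.congr (maa_e3 _ _ g i j z₁ z₂ z₃), mul_assoc, mul_assoc, ← mul_pow, ← mul_pow]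
    have p23 := one_le_mul_of_one_le_of_one_le (o z₂) (o z₃)
    exact K _ _ _ _ _ _ _ hg hi hj r₁ r₂ r₃ (le_mul_of_one_le_right (o' _) p23)
      ((le_mul_of_one_le_right (o' _) (o _)).trans (le_mul_of_one_le_left (by positivity) (o _)))
      ((le_mul_of_one_le_left (o' _) (o _)).trans (le_mul_of_one_le_left (by positivity) (o _)))

/-! ### Part b -/

theorem mab_ev : ∀ᶠ Y : ℝ in atTop, Real.exp (-(Y ^ (1 / 100 : ℝ))) * Y ^ 3 ≤ 1 := by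
  filter_upwards [ev_rpow_le ((301 : ℕ).factorial : ℝ) (θ := 0) (θ' := 1 / 100) (by norm_num),
    eventually_gt_atTop (0 : ℝ)] with Y h1 h0
  rw [Real.rpow_zero, mul_one] at h1
  have hu : 0 < Y ^ (1 / 100 : ℝ) := Real.rpow_pos_of_pos h0 _
  have e : Y ^ 3 = (Y ^ (1 / 100 : ℝ)) ^ 300 := by
    rw [← Real.rpow_natCast (Y ^ (1 / 100 : ℝ)), ← Real.rpow_mul h0.le, ← Real.rpow_natCast]
    norm_num
  have h2 := Real.pow_div_factorial_le_exp _ hu.le 301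
  rw [e]
  generalize Y ^ (1 / 100 : ℝ) = u at *
  have hf : (0 : ℝ) < ((301 : ℕ).factorial : ℝ) := by exact_mod_cast Nat.factorial_pos _
  generalize ((301 : ℕ).factorial : ℝ) = F at *
  rw [Real.exp_neg, inv_mul_le_iff₀ (Real.exp_pos _), mul_one]
  refine le_trans ?_ h2
  rw [le_div_iff₀ hf, pow_succ u 300]
  exact mul_le_mul_of_nonneg_left h1 (by positivity)

theorem mab_ps0 {Z : ℝ} {m : O} (hm : PSq m) (h : ps Z 0 m ≠ 0) : m = 1 := by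
  have h1 : pfs m = ∅ := Finset.eq_empty_of_forall_notMem fun p hp => by
    have := mf_ne_zero h hp
    simp at this
  rw [← hm.1.rad_eq hm.2, rad, h1, Finset.prod_empty]

theorem mab_gy (κ : ℕ) {y : ℝ} (hy : 0 ≤ y) (m : O) : ‖(gy κ y m : ℂ)‖ ≤ 1 := by
  rw [Complex.norm_real, Real.norm_eq_abs, abs_of_pos (gy_pos κ y m)]
  exact gy_le_one κ hy m

theorem mab_lin {X Z y E : ℝ} {κ : ℕ} {Λ : (O → ℂ) → ℂ} (hΛ : FF X Λ) (hZ : 1 ≤ Z) (hX : X ≤ Z ^ 4)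
    (h0 : ‖Λ (ps Z 0)‖ ≤ 1) (h1 : ∀ j, j ≤ 3 → ‖Λ (gm κ y (ps Z j))‖ ≤ E)
    (h2 : ∀ i j, i ≤ 1 → j ≤ 2 → ‖Λ (cv (gm κ y (ps Z i)) (gm κ y (ps Z j)))‖ ≤ E)
    (h3 : ∀ h i j, h ≤ 1 → i ≤ 1 → j ≤ 1 →
      ‖Λ (cv (gm κ y (ps Z h)) (cv (gm κ y (ps Z i)) (gm κ y (ps Z j))))‖ ≤ E) :
    ‖Λ (gr κ y Z)‖ ≤ 1 + 444 * E := by
  have a1 : ‖Λ (gm κ y (r3 Z))‖ ≤ 12 * E := hΛ.sp (sp_r3 Z) le_rfl h1
  have a2 : ‖Λ (cv (gm κ y (r1 Z)) (gm κ y (r1 Z)))‖ ≤ 12 * (12 * E) :=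
    (hΛ.cv_left _).sp (sp_r1 Z) (by norm_num) fun i hi =>
      (hΛ.cv_right _).sp (sp_r1 Z) (by norm_num) fun j hj => h2 i j hi (by omega)
  have a3 : ‖Λ (cv (gm κ y (r1 Z)) (gm κ y (r2 Z)))‖ ≤ 12 * (12 * E) :=
    (hΛ.cv_left _).sp (sp_r1 Z) (by norm_num) fun i hi =>
      (hΛ.cv_right _).sp (sp_r2 Z) (by norm_num) fun j hj => h2 i j hi hj
  have a4 : ‖Λ (cv (gm κ y (r1 Z)) (cv (gm κ y (r1 Z)) (gm κ y (r1 Z))))‖ ≤ 12 * (12 * (12 * E)) :=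
    (hΛ.cv_left _).sp (sp_r1 Z) (by norm_num) fun h hh =>
      ((hΛ.cv_right _).cv_left _).sp (sp_r1 Z) (by norm_num) fun i hi =>
        ((hΛ.cv_right _).cv_right _).sp (sp_r1 Z) (by norm_num) fun j hj => h3 h i j hh hi hj
  have e : Λ (gr κ y Z) = Λ (ps Z 0) + Λ (gm κ y (r3 Z)) +
      1 / 2 * Λ (cv (gm κ y (r1 Z)) (gm κ y (r1 Z))) - 1 / 2 * Λ (cv (gm κ y (r1 Z)) (gm κ y (r2 Z))) +
      1 / 6 * Λ (cv (gm κ y (r1 Z)) (cv (gm κ y (r1 Z)) (gm κ y (r1 Z)))) := by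
    rw [hΛ.congr (linnik κ y hZ hX)]
    obtain ⟨c, hc⟩ := hΛ
    simp only [hc, Finset.mul_sum, ← Finset.sum_add_distrib, ← Finset.sum_sub_distrib]
    exact Finset.sum_congr rfl fun n _ => by ring
  have n2 : ‖(1 / 2 : ℂ)‖ = 1 / 2 := by simp
  have n6 : ‖(1 / 6 : ℂ)‖ = 1 / 6 := by simp
  rw [e]
  refine (norm_add_le _ _).trans ((add_le_add_left ((norm_sub_le _ _).trans (add_le_add_left
    ((norm_add_le _ _).trans (add_le_add_left (norm_add_le _ _) _)) _)) _).trans ?_)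
  simp only [norm_mul, n2, n6]
  linarith

/-- `Bil_LL` (`φ = gy`), `gy_sub_gr` + `LL_triv` (`y / zz Y ≥ Y^0.01`), `linnik` (`XX Y ≤ (zz Y)^4`), `LL_small` for `ps 0`,
`FF.sp` in each slot -/
theorem bar_large {l : ℤ} {η : ℝ} (hη : η ≤ 1 / 100000) (h : ShapeL l η) (κ k c : ℕ) (hκ : 1 ≤ κ) :
    ∃ C : ℝ, 0 ≤ C ∧ ∀ᶠ Y : ℝ in atTop, ∀ (a A y : ℝ) (α : O → ℂ), Hy η k Y a A α → Y ^ (15 / 100 : ℝ) ≤ y →
    ‖Bil a Y α (fun m => (gy κ y m : ℂ) * al m ^ l) (2 * A) Y‖ ≤ C * Bd Y c := by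
  obtain ⟨C, hC, hs⟩ := h κ k c hκ
  refine ⟨3 + 444 * C, by positivity, ?_⟩
  filter_upwards [hs, Bil_LL l k, LL_triv l k 0, LL_small l k 0, mab_ev,
    ev_rpow_le_Bd 1 0 (θ := 0) (by norm_num) c, eventually_ge_atTop (1 : ℝ)]
    with Y hs hB hT hS he hBd hY a A y α hy hyY
  have hY0 : 0 < Y := by linarith
  have hy' : Hy (1 / 100000) k Y a A α := hy.mono hY hη
  have hZ : 1 ≤ zz Y := Real.one_le_rpow hY (by norm_num)
  have hZy : zz Y ≤ y := (Real.rpow_le_rpow_of_exponent_le hY (by norm_num)).trans hyY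
  have hX : XX Y ≤ zz Y ^ 4 := by
    rw [XX, zz, ← Real.rpow_natCast, ← Real.rpow_mul hY0.le]
    exact Real.rpow_le_rpow_of_exponent_le hY (by norm_num)
  have hq : Y ^ (1 / 100 : ℝ) ≤ y / zz Y := by
    rw [le_div_iff₀ (by linarith), zz, ← Real.rpow_add hY0]
    exact (Real.rpow_le_rpow_of_exponent_le hY (by norm_num)).trans hyY
  obtain ⟨s1, s2, s3⟩ := hs a A α hy y (hZ.trans hZy)
  have b1 := hB a A α hy' (fun m => (gy κ y m : ℂ)) (mab_gy κ (by linarith))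
  have b2 := hT a A α hy' (fun m => (gy κ y m : ℂ) - gr κ y (zz Y) m) (Real.exp (-(Y ^ (1 / 100 : ℝ))))
    (Real.exp_pos _).le fun m _ _ => by
      rw [pow_zero, mul_one]
      exact (gy_sub_gr hκ (by linarith) hZy m).trans (Real.exp_le_exp.2 (neg_le_neg hq))
  have b3 := hS a A α hy' (ps (zz Y) 0) (dvP_mf fun n => by simp) fun m hm h => by
    rw [mab_ps0 hm h, nm_one]
    exact Real.one_le_rpow hY (by norm_num)
  have b4 := mab_lin (ff_LL l a Y A α) hZ hX b3 s1 s2 s3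
  have e : LL l a Y A α (fun m => (gy κ y m : ℂ)) =
      LL l a Y A α (fun m => (gy κ y m : ℂ) - gr κ y (zz Y) m) + LL l a Y A α (gr κ y (zz Y)) := by
    rw [← (ff_LL l a Y A α).add]
    simp only [sub_add_cancel]
  have b5 := (norm_add_le _ _).trans (add_le_add b1 (e ▸ (norm_add_le _ _).trans (add_le_add (b2.trans he) b4)))
  rw [sub_add_cancel] at b5
  simp only [Real.rpow_zero, mul_one] at hBd
  linarith

/-- bounded `Y`: `Bil_bdd` (the column sequence may be replaced by its restriction to `PSq`, or use `k = 0` bounds directly) -/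
theorem bar_bdd (l : ℤ) (κ k : ℕ) (C₃ Y₀ : ℝ) : ∃ C : ℝ, 0 ≤ C ∧ ∀ (Y a A y : ℝ) (α : O → ℂ), 2 ≤ Y → Y ≤ Y₀ → 0 < a →
    a ≤ 1 → 0 ≤ y → Dv k α →
    ‖Bil a Y α (fun m => (gy κ y m : ℂ) * al m ^ l) (2 * A) Y‖ ≤ C * Y ^ (5 / 6 : ℝ) / Real.log Y ^ C₃ := by
  classical
  obtain ⟨C, hC, hb⟩ := Bil_bdd k
  set Y₁ : ℝ := max Y₀ 2 with hY₁
  have hY₁2 : 2 ≤ Y₁ := le_max_right _ _
  have hl2 : 0 < Real.log 2 := Real.log_pos (by norm_num)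
  have hl1 : 0 < Real.log Y₁ := Real.log_pos (by linarith)
  refine ⟨C * Y₁ ^ 2 * (Real.log Y₁ ^ C₃ + Real.log 2 ^ C₃), by positivity,
    fun Y a A y α hY hY₀ ha ha1 hy hd => ?_⟩
  have hYY : Y ≤ Y₁ := hY₀.trans (le_max_left _ _)
  have hl : 0 < Real.log Y := Real.log_pos (by linarith)
  have e : Bil a Y α (fun m => (gy κ y m : ℂ) * al m ^ l) (2 * A) Y =
      Bil a Y α (fun m => if m = 0 then 0 else (gy κ y m : ℂ) * al m ^ l) (2 * A) Y := by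
    refine Finset.sum_congr rfl fun x _ => Finset.sum_congr rfl fun b _ => ?_
    by_cases hb : b = 0
    · rw [f0_eq_zero (n := x * b) fun h => h.ne_zero (by rw [hb, mul_zero])]
      simp
    · simp only [if_neg hb]
  have b1 := hb Y a (2 * A) Y α (fun m => if m = 0 then 0 else (gy κ y m : ℂ) * al m ^ l) (by linarith) ha ha1 hd
    fun m => by
      by_cases hm : m = 0
      · simp only [if_pos hm, norm_zero]
        exact pow_nonneg (dn_nonneg _) _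
      · simp only [if_neg hm]
        rw [norm_mul, norm_zpow, norm_al hm, one_zpow, mul_one]
        exact (mab_gy κ hy m).trans (one_le_pow₀ (one_le_dn hm))
  have b2 : Real.log Y ^ C₃ ≤ Real.log Y₁ ^ C₃ + Real.log 2 ^ C₃ := by
    rcases le_total 0 C₃ with h | h
    · have := Real.rpow_le_rpow hl.le (Real.log_le_log (by linarith) hYY) h
      have := Real.rpow_pos_of_pos hl2 C₃
      linarith
    · have := Real.rpow_le_rpow_of_nonpos hl2 (Real.log_le_log (by norm_num) hY) h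
      have := Real.rpow_pos_of_pos hl1 C₃
      linarith
  have b3 : 1 ≤ Y ^ (5 / 6 : ℝ) := Real.one_le_rpow (by linarith) (by norm_num)
  rw [e, le_div_iff₀ (Real.rpow_pos_of_pos hl _)]
  calc _ ≤ C * Y₁ ^ 2 * (Real.log Y₁ ^ C₃ + Real.log 2 ^ C₃) := by
        refine mul_le_mul (b1.trans ?_) b2 (Real.rpow_pos_of_pos hl _).le (by positivity)
        exact mul_le_mul_of_nonneg_left (pow_le_pow_left₀ (by linarith) hYY 2) hC.le
    _ ≤ _ := le_mul_of_one_le_right (by positivity) b3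

end Crest.Agent.R12.BH

namespace Crest.Agent.R12

open Crest.Agent.R17 Filter BH

theorem stBar (h1 : StBil) (h2 : StRam) (h3 : StBa) (h4 : StBb) : StBar := by
  intro l
  obtain ⟨η₁, hη₁, ha⟩ := baL h3 l
  obtain ⟨η₂, hη₂, hb⟩ := bbL h4 l
  set η : ℝ := min (min η₁ η₂) (1 / 100000) with hη
  have hη0 : 0 < η := lt_min (lt_min hη₁ hη₂) (by norm_num)
  have hη1 : η ≤ 1 / 100000 := min_le_right _ _
  have ht := twoL h1 h2
  have hs : ShapeL l η := shapeL (coreL hη1 ht (qL hη1 ht (ha.mono ((min_le_left _ _).trans (min_le_left _ _)))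
    (hb.mono ((min_le_left _ _).trans (min_le_right _ _)))))
  refine ⟨η, hη0, hη1.trans (by norm_num), fun κ k C₃ hκ => ?_⟩
  obtain ⟨C, hC, hev⟩ := bar_large hη1 hs κ k ⌈C₃⌉₊ hκ
  obtain ⟨Y₀, hY₀⟩ := eventually_atTop.1 (hev.and (ev_log_ge 1))
  obtain ⟨C', hC', hbd⟩ := bar_bdd l κ k C₃ Y₀
  refine ⟨C + C', fun Y a A y α hY ha ha1 hA hA' hy hy' hα hd => ?_⟩
  have hY0 : 0 < Y := by linarith
  have hl : 0 < Real.log Y := Real.log_pos (by linarith)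
  have hq : 0 ≤ Y ^ (5 / 6 : ℝ) / Real.log Y ^ C₃ := by positivity
  rcases le_total Y₀ Y with h | h
  · obtain ⟨h1, h2⟩ := hY₀ Y h
    have h3 := h1 a A y α ⟨ha, ha1, hA, hA', hα, hd⟩ hy
    have h4 : Bd Y ⌈C₃⌉₊ ≤ Y ^ (5 / 6 : ℝ) / Real.log Y ^ C₃ := by
      unfold Bd
      refine div_le_div_of_nonneg_left (by positivity) (by positivity) ?_
      rw [← Real.rpow_natCast]
      exact Real.rpow_le_rpow_of_exponent_le h2 (Nat.le_ceil _)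
    calc _ ≤ C * (Y ^ (5 / 6 : ℝ) / Real.log Y ^ C₃) := h3.trans (mul_le_mul_of_nonneg_left h4 hC)
      _ ≤ (C + C') * (Y ^ (5 / 6 : ℝ) / Real.log Y ^ C₃) := mul_le_mul_of_nonneg_right (by linarith) hq
      _ = _ := by ring
  · have h3 := hbd Y a A y α hY h ((Real.rpow_pos_of_pos hY0 _).trans_le ha) ha1
      ((Real.rpow_pos_of_pos hY0 _).le.trans hy) hd
    calc _ ≤ C' * (Y ^ (5 / 6 : ℝ) / Real.log Y ^ C₃) := h3.trans_eq (by ring)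
      _ ≤ (C + C') * (Y ^ (5 / 6 : ℝ) / Real.log Y ^ C₃) := mul_le_mul_of_nonneg_right (by linarith) hq
      _ = _ := by ring

end Crest.Agent.R12
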