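import Crest.Agent.R12.BH.LL

/-! Row 12, block BH: the type II estimate.  Prefix for helper lemmas: `twa_` (part a), `twb_` (part b). -/

set_option autoImplicit false

namespace Crest.Agent.R12.BH

open Crest.Agent.R17 Filter

/-! ### Part a -/

theorem twa_num {Y A B : ℝ} (hY : 1 ≤ Y) (hA : 0 < A) (hB : 0 < B) (h1 : Y ^ (5009 / 10000 : ℝ) ≤ A)
    (h2 : A ≤ Y ^ (6656 / 10000 : ℝ)) (h3 : Y ^ (1 - 1 / 100000 : ℝ) ≤ A * B)
    (h4 : A * B ≤ Y ^ (1 + 1 / 100000 : ℝ)) :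
    Y ^ (1 / 4 : ℝ) ≤ B ∧ B ≤ Y ^ (1 / 2 - 1 / 2000 : ℝ) ∧ A ≤ 4 * B ^ 2 ∧
      (A + A ^ (3 / 4 : ℝ) * B ^ (1 / 2 : ℝ)) * A * B ≤ 2 * (Y ^ (83321 / 100000 : ℝ)) ^ 2 := by
  have hY0 : 0 < Y := by linarith
  obtain ⟨x, rfl⟩ : ∃ x, A = Real.exp x := ⟨_, (Real.exp_log hA).symm⟩
  obtain ⟨z, rfl⟩ : ∃ z, B = Real.exp z := ⟨_, (Real.exp_log hB).symm⟩
  obtain ⟨y, rfl⟩ : ∃ y, Y = Real.exp y := ⟨_, (Real.exp_log hY0).symm⟩
  have hy : 0 ≤ y := by simpa using hY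
  simp only [← Real.exp_mul, ← Real.exp_add, Real.exp_le_exp] at h1 h2 h3 h4 ⊢
  refine ⟨by linarith, by linarith, ?_, ?_⟩
  · have : Real.exp x ≤ Real.exp z ^ 2 := by
      rw [← Real.exp_nat_mul]
      exact Real.exp_le_exp.2 (by push_cast; linarith)
    nlinarith [sq_nonneg (Real.exp z)]
  · rw [← Real.exp_nat_mul, add_mul, add_mul, ← Real.exp_add, ← Real.exp_add, ← Real.exp_add,
      ← Real.exp_add, two_mul]
    exact add_le_add (Real.exp_le_exp.2 (by push_cast; linarith))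
      (Real.exp_le_exp.2 (by push_cast; linarith))

theorem twa_supp {β : O → ℂ} {B X : ℝ} (l : ℤ) (h : Supp β B X) : Supp (fun n => β n * al n ^ l) B X :=
  fun n hn => h n (left_ne_zero_of_mul hn)

theorem twa_dv {β : O → ℂ} {B X : ℝ} {k : ℕ} (l : ℤ) (hB : 0 ≤ B) (h : Supp β B X) (hv : Dv k β) :
    Dv k fun n => β n * al n ^ l := by
  intro n
  refine le_trans ?_ (hv n)
  by_cases h0 : β n = 0
  · simp [h0]
  · have hn : n ≠ 0 := by
      rintro rfl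
      have := (h 0 h0).2.1
      simp only [nm_zero] at this
      linarith
    rw [norm_mul, norm_zpow, norm_al hn, one_zpow, mul_one]

/-- One dyadic box.  `ε = 1/100000`: if `A B ≤ Y^(1-ε)` or `≥ Y^(1+ε)` use `Bil_far` (`J = 0`).  Otherwise
`Y^0.33439 ≤ B ≤ Y^0.49911`, `A ≤ B²`; `StBil` with `η = 1/2000`, `C₃ = c`; `StRam l k c₁ C₂` gives `SWH`;
`N2_le_of_Dv` (`Z = Y`); `min ≤ 1`, `a ≤ 1`, and `(A + A^(3/4) B^(1/2)) A B ≤ 2 Y^1.66642`
(`A² B = (AB)²/B`, `A^(7/4) B^(3/2) = (AB)^(7/4) B^(-1/4)`), `ev_rpow_le_Bd` with `θ = 0.83321`. -/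
theorem two_box (h1 : StBil) (h2 : StRam) (l : ℤ) (k c₁ c : ℕ) : ∃ C : ℝ, 0 ≤ C ∧ ∀ᶠ Y : ℝ in atTop,
    ∀ (a A B : ℝ) (α β : O → ℂ), Y ^ (-(1 / 2000) : ℝ) ≤ a → a ≤ 1 → Y ^ (5009 / 10000 : ℝ) ≤ A →
    A ≤ Y ^ (6656 / 10000 : ℝ) → 1 ≤ B → Supp α A (2 * A) → Supp β B (2 * B) → Dv k α → Dv k β →
    BVS (Real.log Y ^ c₁) k β → ‖Bil a Y α (fun n => β n * al n ^ l) (2 * A) (2 * B)‖ ≤ C * Bd Y c := by
  obtain ⟨C, C₂, hB⟩ := h1 (1 / 2000) k c (by norm_num)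
  obtain ⟨Y₀, hR⟩ := h2 l k c₁ C₂
  obtain ⟨Cf, hCf, hF⟩ := Bil_far k 0 (1 / 100000) (by norm_num)
  obtain ⟨C₅, D, hC₅, hD, hN⟩ := N2_le_of_Dv k
  have hM : 0 ≤ max C 0 := le_max_right _ _
  refine ⟨1 + max C 0, by positivity, ?_⟩
  filter_upwards [eventually_ge_atTop Y₀, eventually_ge_atTop (2 : ℝ),
    ev_rpow_le_Bd Cf 0 (θ := -0) (by norm_num) c,
    ev_rpow_le_Bd (max C 0 * (4 * C₅)) D (θ := 83321 / 100000) (by norm_num) c,
    ev_rpow_le 2 (θ := 6656 / 10000) (θ' := 1) (by norm_num),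
    ev_rpow_le 2 (θ := 1 / 2 - 1 / 2000) (θ' := 1) (by norm_num)]
    with Y hY₀ hY2 e1 e2 e3 e4 a A B α β ha ha1 hA1 hA2 hB1 sα sβ dα dβ hbv
  have hY1 : 1 < Y := by linarith
  have hY0 : 0 < Y := by linarith
  have hBd := Bd_pos hY1 c
  have ha0 : 0 < a := lt_of_lt_of_le (Real.rpow_pos_of_pos hY0 _) ha
  have hA1' : 1 ≤ A := (Real.one_le_rpow hY1.le (by norm_num)).trans hA1
  have hA0 : 0 < A := by linarith
  have hB0 : 0 < B := by linarith
  have sγ := twa_supp l sβ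
  have dγ := twa_dv l hB0.le sβ dβ
  rw [Real.rpow_one] at e3 e4
  by_cases hfar : A * B ≤ Y ^ (1 - 1 / 100000 : ℝ) ∨ Y ^ (1 + 1 / 100000 : ℝ) ≤ A * B
  · have := hF Y a A B α _ hY1.le ha0 ha1 hA0 hB0 sα sγ dα dγ hfar
    rw [Real.rpow_zero, mul_one] at e1
    refine (this.trans e1).trans ?_
    nlinarith
  rw [not_or, not_le, not_le] at hfar
  obtain ⟨n1, n2, n3, n4⟩ := twa_num hY1.le hA0 hB0 hA1 hA2 hfar.1.le hfar.2.le
  have hsw := hR Y B β hY₀ n1 (by linarith) sβ dβ (by rwa [Real.rpow_natCast])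
  have key := hB Y a A B α _ hY2 ha ha1 hA1' hB1 n3 n2 sα sγ dα dγ hsw
  have k1 := (hN α A (2 * A) Y sα dα (by linarith) (by linarith) hY2).1
  have k2 := (hN _ B (2 * B) Y sγ dγ (by linarith) (by linarith) hY2).2
  refine key.trans ?_
  have hL : 0 < Real.log Y ^ D := Real.rpow_pos_of_pos (Real.log_pos hY1) _
  have hθ : 0 < Y ^ (83321 / 100000 : ℝ) := Real.rpow_pos_of_pos hY0 _
  have hS : 0 ≤ A + A ^ (3 / 4 : ℝ) * B ^ (1 / 2 : ℝ) := by positivity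
  have hmin0 : 0 ≤ min (A * B / Y) (Y / (A * B)) := le_min (by positivity) (by positivity)
  have hmin : min (A * B / Y) (Y / (A * B)) ≤ 1 := by
    rcases le_total (A * B) Y with h | h
    · exact (min_le_left _ _).trans ((div_le_one hY0).2 h)
    · exact (min_le_right _ _).trans ((div_le_one (by positivity)).2 h)
  have hprod : Real.sqrt (a * (A + A ^ (3 / 4 : ℝ) * B ^ (1 / 2 : ℝ))) * Real.sqrt (N2 α (2 * A)) *
      Real.sqrt (N2d (fun n => β n * al n ^ l) (2 * B)) ≤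
      4 * C₅ * Y ^ (83321 / 100000 : ℝ) * Real.log Y ^ D := by
    have q1 : Real.sqrt (a * (A + A ^ (3 / 4 : ℝ) * B ^ (1 / 2 : ℝ))) ≤
        Real.sqrt (A + A ^ (3 / 4 : ℝ) * B ^ (1 / 2 : ℝ)) :=
      Real.sqrt_le_sqrt (by nlinarith)
    calc _ ≤ Real.sqrt (A + A ^ (3 / 4 : ℝ) * B ^ (1 / 2 : ℝ)) *
          Real.sqrt (C₅ * (2 * A) * Real.log Y ^ D) * Real.sqrt (C₅ * (2 * B) * Real.log Y ^ D) := by
          gcongr
      _ = Real.sqrt ((A + A ^ (3 / 4 : ℝ) * B ^ (1 / 2 : ℝ)) * (C₅ * (2 * A) * Real.log Y ^ D) *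
          (C₅ * (2 * B) * Real.log Y ^ D)) := by
          rw [← Real.sqrt_mul hS, ← Real.sqrt_mul (by positivity)]
      _ ≤ 4 * C₅ * Y ^ (83321 / 100000 : ℝ) * Real.log Y ^ D := by
          refine Real.sqrt_le_iff.2 ⟨by positivity, ?_⟩
          have hq : 0 ≤ 4 * (C₅ * Real.log Y ^ D) ^ 2 := by positivity
          calc _ = 4 * (C₅ * Real.log Y ^ D) ^ 2 *
                ((A + A ^ (3 / 4 : ℝ) * B ^ (1 / 2 : ℝ)) * A * B) := by ring
            _ ≤ 4 * (C₅ * Real.log Y ^ D) ^ 2 * (4 * (Y ^ (83321 / 100000 : ℝ)) ^ 2) :=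
                mul_le_mul_of_nonneg_left (n4.trans (by nlinarith [sq_nonneg (Y ^ (83321 / 100000 : ℝ))])) hq
            _ = _ := by ring
  have t1 : C * min (A * B / Y) (Y / (A * B)) *
      Real.sqrt (a * (A + A ^ (3 / 4 : ℝ) * B ^ (1 / 2 : ℝ))) * Real.sqrt (N2 α (2 * A)) *
      Real.sqrt (N2d (fun n => β n * al n ^ l) (2 * B)) ≤ Bd Y c := by
    refine le_trans ?_ e2
    have hCm : C * min (A * B / Y) (Y / (A * B)) ≤ max C 0 :=
      (mul_le_mul_of_nonneg_right (le_max_left C 0) hmin0).trans (mul_le_of_le_one_right hM hmin)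
    calc _ = C * min (A * B / Y) (Y / (A * B)) *
          (Real.sqrt (a * (A + A ^ (3 / 4 : ℝ) * B ^ (1 / 2 : ℝ))) * Real.sqrt (N2 α (2 * A)) *
            Real.sqrt (N2d (fun n => β n * al n ^ l) (2 * B))) := by ring
      _ ≤ max C 0 * (4 * C₅ * Y ^ (83321 / 100000 : ℝ) * Real.log Y ^ D) :=
          mul_le_mul hCm hprod (by positivity) hM
      _ = _ := by ring
  have t2 : C * Y ^ (5 / 6 : ℝ) / Real.log Y ^ (c : ℝ) ≤ max C 0 * Bd Y c := by
    rw [Real.rpow_natCast, mul_div_assoc]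
    exact mul_le_mul_of_nonneg_right (le_max_left C 0) hBd.le
  linarith

/-- `sum_ball_dy` in both variables -/
theorem Bil_dy (a Y : ℝ) (α γ : O → ℂ) {X : ℝ} {N : ℕ} (hα : ∀ b, α b ≠ 0 → 1 < nm b ∧ nm b ≤ X)
    (hγ : ∀ b, γ b ≠ 0 → 1 < nm b ∧ nm b ≤ X) (hN : X ≤ 2 ^ N) :
    Bil a Y α γ X X = ∑ i ∈ Finset.range N, ∑ j ∈ Finset.range N,
      Bil a Y (dy i α) (dy j γ) (2 * 2 ^ i) (2 * 2 ^ j) := by
  have e : ∀ (α γ : O → ℂ) (X X' : ℝ), Bil a Y α γ X X' =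
      ∑ x ∈ ball X, α x * ∑ b ∈ ball X', γ b * (f0 (x * b) * (LW a Y (nm (x * b)) : ℂ)) := fun α γ X X' => by
    simp only [Bil, Finset.mul_sum, mul_assoc]
  rw [e, sum_ball_dy α _ hα hN]
  refine Finset.sum_congr rfl fun i _ => ?_
  simp only [e]
  rw [Finset.sum_comm]
  refine Finset.sum_congr rfl fun x _ => ?_
  rw [sum_ball_dy γ _ hγ hN, Finset.mul_sum]

/-! ### Part b -/

open Classical in
/-- move `r` to the rows: `sum_cv` (with `X = X' = Y`) for `α ⋆ (H al^l)` -/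
theorem sum2_eq_Bil {l : ℤ} {a Y A R : ℝ} {α H β : O → ℂ} (hα : Supp α A (2 * A)) (hR : 1 ≤ R)
    (hAR : 2 * A * R ≤ Y) (hH : ∀ r, Prim r → H r ≠ 0 → nm r ≤ R) :
    ∑ r ∈ pball Y, ∑ b ∈ pball Y, H r * β b * Ps l a Y A α (r * b) =
      Bil a Y (fun x => if PSq x then cv α (fun r => H r * al r ^ l) x else 0)
        (fun b => (if PSq b ∧ nm b ≤ Y then β b else 0) * al b ^ l) Y Y := by
  set G : O → ℂ := fun m => ∑ b ∈ pball Y, β b * al b ^ l * (f0 (m * b) * (LW a Y (nm (m * b)) : ℂ)) with hG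
  have e1 : ∑ r ∈ pball Y, ∑ b ∈ pball Y, H r * β b * Ps l a Y A α (r * b) =
      ∑ x ∈ ball (2 * A), ∑ r ∈ pball Y, α x * (H r * al r ^ l) * G (x * r) := by
    rw [Finset.sum_comm (s := ball (2 * A))]
    refine Finset.sum_congr rfl fun r _ => ?_
    simp only [hG, Ps, Finset.mul_sum]
    rw [Finset.sum_comm]
    refine Finset.sum_congr rfl fun x _ => Finset.sum_congr rfl fun b _ => ?_
    rw [al_mul, mul_zpow, ← mul_assoc x r b]
    ring
  have e2 : Bil a Y (fun x => if PSq x then cv α (fun r => H r * al r ^ l) x else 0)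
      (fun b => (if PSq b ∧ nm b ≤ Y then β b else 0) * al b ^ l) Y Y =
      ∑ m ∈ pball Y, cv α (fun r => H r * al r ^ l) m * G m := by
    rw [Bil]
    refine Finset.sum_congr_of_eq_on_inter (fun m hm hm' => ?_)
      (fun m hm hm' => absurd (mem_ball.2 (mem_pball.1 hm).1) hm') fun m _ hm => ?_
    · refine Finset.sum_eq_zero fun b _ => ?_
      rw [if_neg fun h => hm' (mem_pball.2 ⟨mem_ball.1 hm, h.1⟩), zero_mul, zero_mul, zero_mul]
    · rw [hG, Finset.mul_sum]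
      refine Finset.sum_congr_of_eq_on_inter (fun b hb hb' => ?_)
        (fun b hb hb' => absurd (mem_ball.2 (mem_pball.1 hb).1) hb') fun b _ hb => ?_
      · rw [if_neg (c := PSq b ∧ nm b ≤ Y) fun h => hb' (mem_pball.2 ⟨h.2, h.1.1⟩)]
        simp
      · by_cases h : PSq (m * b)
        · obtain ⟨h1, h2, -⟩ := (psq_mul_iff (mem_pball.1 hm).2 (mem_pball.1 hb).2).1 h
          rw [if_pos h1, if_pos ⟨h2, (mem_pball.1 hb).1⟩]
          ring
        · rw [f0_eq_zero h]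
          simp
  rw [e1, e2, sum_cv _ _ _ le_rfl]
  have hz : ∀ x, α x = 0 → ∑ r ∈ pball Y, α x * (H r * al r ^ l) * G (x * r) = 0 := fun x h => by
    simp [h]
  have hle : ∀ x, α x ≠ 0 → ∀ t, t ≤ R → 0 ≤ t → nm x * t ≤ Y := fun x h t ht ht0 =>
    (mul_le_mul (hα x h).2.2 ht ht0 ((nm_nonneg x).trans (hα x h).2.2)).trans hAR
  refine Finset.sum_congr_of_eq_on_inter (fun x _ hx => hz x ?_) (fun x _ hx => ?_) fun x _ _ => ?_
  · by_contra h
    exact hx (mem_pball.2 ⟨(mul_one _).ge.trans (hle x h 1 hR zero_le_one), (hα x h).1.1⟩)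
  · have h : α x = 0 := by
      by_contra h
      exact hx (mem_ball.2 (hα x h).2.2)
    simp [h]
  · refine Finset.sum_congr rfl fun r hr => ?_
    by_cases h : α x = 0
    · simp [h]
    by_cases h' : H r = 0
    · simp [h']
    rw [if_pos (by rw [nm_mul]; exact hle x h _ (hH r (mem_pball.1 hr).2 h') (nm_nonneg r))]

theorem twc_norm_al (n : O) (l : ℤ) (hn : n ≠ 0) : ‖al n ^ l‖ = 1 := by
  rw [norm_zpow, norm_al hn, one_zpow]

theorem twc_bvs_dy {K : ℝ} {k : ℕ} {β : O → ℂ} (h : BVS K k β) (j : ℕ) :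
    BVS (2 * K * 4) k (dy j β) := by
  refine bvs_congr (h.mul_bv (bv_Ioc ((2 : ℝ) ^ j) (2 * 2 ^ j))) fun n _ => ?_
  unfold dy nm
  split_ifs <;> simp

/-- All boxes.  `Bil_dy`, `exists_dy_range`; a row box `dy i α` vanishes unless `Y^0.5009 ≤ 2^i ≤ Y^0.6656`;
`dy j (β al^l) = (dy j β) al^l`, `dy j β = β · ψ (nN ·)` with `ψ` of `bv_Ioc` (`BVS.mul_bv`), constants are absorbed by
one more power of `log Y`; `two_box` with `c + 2`, `log_mul_Bd`. -/
theorem two_all (h1 : StBil) (h2 : StRam) (l : ℤ) (k c₁ c : ℕ) : ∃ C : ℝ, 0 ≤ C ∧ ∀ᶠ Y : ℝ in atTop,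
    ∀ (a : ℝ) (α β : O → ℂ), Y ^ (-(1 / 2000) : ℝ) ≤ a → a ≤ 1 →
    Supp α (Y ^ (50099 / 100000 : ℝ)) (2 * Y ^ (66551 / 100000 : ℝ)) → Supp β 1 Y → Dv k α → Dv k β →
    BVS (Real.log Y ^ c₁) k β → ‖Bil a Y α (fun n => β n * al n ^ l) Y Y‖ ≤ C * Bd Y c := by
  obtain ⟨C, hC, h⟩ := two_box h1 h2 l k (c₁ + 1) (c + 2)
  refine ⟨9 * C, by positivity, ?_⟩
  filter_upwards [h, eventually_ge_atTop 2, ev_log_ge 8,
    ev_rpow_le 2 (show (5009 / 10000 : ℝ) < 50099 / 100000 by norm_num),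
    ev_rpow_le 2 (show (66551 / 100000 : ℝ) < 6656 / 10000 by norm_num)]
    with Y h hY hlog e1 e2 a α β ha ha1 hα hβ dα dβ bβ
  have hY1 : 1 ≤ Y := by linarith
  have e3 : Y ^ (6656 / 10000 : ℝ) ≤ Y := by
    calc Y ^ (6656 / 10000 : ℝ) ≤ Y ^ (1 : ℝ) := Real.rpow_le_rpow_of_exponent_le hY1 (by norm_num)
      _ = Y := Real.rpow_one Y
  have e4 : 1 ≤ Y ^ (50099 / 100000 : ℝ) := Real.one_le_rpow hY1 (by norm_num)
  obtain ⟨N, hN, hN'⟩ := exists_dy_range hY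
  have hBd : 0 < Bd Y (c + 2) := Bd_pos (by linarith) _
  rw [Bil_dy a Y α (fun n => β n * al n ^ l) (X := Y) (N := N)
    (fun b hb => ⟨e4.trans_lt (hα b hb).2.1, (hα b hb).2.2.trans (e2.trans e3)⟩)
    (fun b hb => (hβ b (left_ne_zero_of_mul hb)).2) hN]
  have box : ∀ i j : ℕ, ‖Bil a Y (dy i α) (dy j fun n => β n * al n ^ l) (2 * 2 ^ i) (2 * 2 ^ j)‖ ≤
      C * Bd Y (c + 2) := by
    intro i j
    by_cases h0 : ∀ b, dy i α b = 0
    · have : Bil a Y (dy i α) (dy j fun n => β n * al n ^ l) (2 * 2 ^ i) (2 * 2 ^ j) = 0 := by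
        simp [Bil, h0]
      rw [this, norm_zero]; positivity
    obtain ⟨b, hb⟩ := not_forall.1 h0
    have sα : Supp (dy i α) (2 ^ i) (2 * 2 ^ i) := supp_dy i fun b hb => (hα b hb).1
    have hb' : α b ≠ 0 := fun h' => hb (by simp [dy, h'])
    obtain ⟨-, p1, p2⟩ := sα b hb
    obtain ⟨-, q1, q2⟩ := hα b hb'
    have e : (dy j fun n => β n * al n ^ l) = fun n => dy j β n * al n ^ l := by
      funext n
      unfold dy
      split_ifs <;> simp
    rw [e]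
    refine h a (2 ^ i) (2 ^ j) (dy i α) (dy j β) ha ha1 (by linarith) (by linarith)
      (one_le_pow₀ one_le_two) sα (supp_dy j fun b hb => (hβ b hb).1)
      (fun b => (norm_dy_le i α b).trans (dα b)) (fun b => (norm_dy_le j β b).trans (dβ b)) ?_
    refine (twc_bvs_dy bβ j).mono ?_ le_rfl
    have : 0 ≤ Real.log Y ^ c₁ := by positivity
    rw [pow_succ]; nlinarith
  calc _ ≤ ∑ i ∈ Finset.range N, ∑ j ∈ Finset.range N, C * Bd Y (c + 2) :=
        (norm_sum_le _ _).trans (Finset.sum_le_sum fun i _ =>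
          (norm_sum_le _ _).trans (Finset.sum_le_sum fun j _ => box i j))
    _ = (N : ℝ) * N * (C * Bd Y (c + 2)) := by
        simp only [Finset.sum_const, Finset.card_range, nsmul_eq_mul]; ring
    _ ≤ (3 * Real.log Y) * (3 * Real.log Y) * (C * Bd Y (c + 2)) := by gcongr
    _ = 9 * C * (Real.log Y ^ 2 * Bd Y (c + 2)) := by ring
    _ = _ := by rw [log_mul_Bd (by linarith)]

/-- `β = T · (β₁ + β₀)` with `β₁ = β/T` on `N > 1` (`bvs_smul`, `bv_gt`, `BVS.mul_bv`), `β₀ = β/T` on `N ≤ 1`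
(`LL_small`); `sum2_LL`, `sum2_eq_Bil` (`R = Y^0.1655`), `two_all` (`DvP.dv`, `bvs_congr`, `bv_le`). -/
theorem twoL (h1 : StBil) (h2 : StRam) : TwoL := by
  classical
  intro l k k' c₁ c
  obtain ⟨C, hC, h⟩ := two_all h1 h2 l (k + k' + 1) (c₁ + 1) c
  refine ⟨C + 2, by positivity, ?_⟩
  filter_upwards [h, eventually_ge_atTop 2, ev_log_ge 8, LL_small l k (k' + k' + 1), sum2_LL l k k',
    ev_rpow_le 2 (show (66551 / 100000 : ℝ) < 1 by norm_num),
    ev_rpow_le_Bd 1 0 (show (0 : ℝ) < 5 / 6 by norm_num) c]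
    with Y h hY hlog hsm hs2 e1 e2 a A α hy H β T hT dH dβ hH bβ
  have hY1 : 1 ≤ Y := by linarith
  have hY0 : 0 < Y := by linarith
  have hT0 : 0 < T := by linarith
  rw [Real.rpow_one] at e1
  rw [Real.rpow_zero, Real.rpow_zero, one_mul, one_mul] at e2
  have hA0 : 0 < A := (hy.pos hY0).2
  set β₁ : O → ℂ := fun n => ((T⁻¹ : ℝ) : ℂ) * β n * (if (1 : ℝ) < (nN n : ℝ) then 1 else 0) with hβ₁
  set β₀ : O → ℂ := fun n => ((T⁻¹ : ℝ) : ℂ) * β n * (if (1 : ℝ) < (nN n : ℝ) then 0 else 1) with hβ₀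
  have hTn : ‖((T⁻¹ : ℝ) : ℂ)‖ = T⁻¹ := by
    rw [Complex.norm_real, Real.norm_of_nonneg (inv_nonneg.2 hT0.le)]
  have hT1 : T⁻¹ ≤ 1 := inv_le_one_of_one_le₀ hT
  have hsplit : β = fun n => (T : ℂ) * (β₁ n + β₀ n) := by
    funext n
    have : (T : ℂ) ≠ 0 := by exact_mod_cast hT0.ne'
    simp only [hβ₁, hβ₀]
    split_ifs <;> push_cast <;> field_simp <;> ring
  have d₁ : DvP k' β₁ := dβ.of_le fun n _ => by
    simp only [hβ₁]
    split_ifs
    · rw [mul_one, norm_mul, hTn]; exact mul_le_of_le_one_left (norm_nonneg _) hT1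
    · simp
  have d₀ : DvP k' β₀ := dβ.of_le fun n _ => by
    simp only [hβ₀]
    split_ifs
    · simp
    · rw [mul_one, norm_mul, hTn]; exact mul_le_of_le_one_left (norm_nonneg _) hT1
  have hF : FF (XX Y) fun g => LL l a Y A α (cv H g) := (ff_LL l a Y A α).cv_right H
  have hLL : LL l a Y A α (cv H β) =
      (T : ℂ) * (LL l a Y A α (cv H β₁) + LL l a Y A α (cv H β₀)) := by
    have a1 := hF.smul (T : ℂ) fun n => β₁ n + β₀ n
    have a2 := hF.add β₁ β₀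
    rw [← a2, ← a1, ← hsplit]
  have hR1 : 1 ≤ Y ^ (331 / 2000 : ℝ) := Real.one_le_rpow hY1 (by norm_num)
  have hAR : 2 * A * Y ^ (331 / 2000 : ℝ) ≤ 2 * Y ^ (66551 / 100000 : ℝ) := by
    have : Y ^ (66551 / 100000 : ℝ) = Y ^ (1 / 2 + 1 / 100000 : ℝ) * Y ^ (331 / 2000 : ℝ) := by
      rw [← Real.rpow_add hY0]; norm_num
    rw [this, mul_assoc]
    have := hy.hA'
    gcongr
  have b0 : ‖LL l a Y A α (cv H β₀)‖ ≤ 1 := by
    refine hsm a A α hy _ (dH.cv d₀) fun m _ hm => ?_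
    obtain ⟨r, b, hr, hb, rfl, hr', hb'⟩ := cv_ne_zero hm
    have hb1 : nm b ≤ 1 := by
      by_contra hc
      exact hb' (by simp only [hβ₀]; rw [if_pos (show (1 : ℝ) < (nN b : ℝ) from not_le.1 hc), mul_zero])
    rw [nm_mul]
    calc nm r * nm b ≤ Y ^ (331 / 2000 : ℝ) * 1 :=
          mul_le_mul (hH r hr hr').2 hb1 (nm_nonneg _) (by positivity)
      _ ≤ _ := by
          rw [mul_one]; exact Real.rpow_le_rpow_of_exponent_le hY1 (by norm_num)
  have b1 := hs2 a A α hy H β₁ dH d₁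
  rw [sum2_eq_Bil hy.supp hR1 (hAR.trans e1) fun r hr hr' => (hH r hr hr').2] at b1
  have dHl : DvP k' fun r => H r * al r ^ l := dH.of_le fun n hn => by
    rw [norm_mul, twc_norm_al n l hn.ne_zero, mul_one]
  have b2 : ‖Bil a Y (fun x => if PSq x then cv α (fun r => H r * al r ^ l) x else 0)
      (fun b => (if PSq b ∧ nm b ≤ Y then β₁ b else 0) * al b ^ l) Y Y‖ ≤ C * Bd Y c := by
    refine h a _ _ ((Real.rpow_le_rpow_of_exponent_le hY1 (by norm_num)).trans hy.ha) hy.ha1 ?_ ?_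
      ((DvP.cv (fun n _ => hy.dv n) dHl).dv PSq fun n hn => hn.1)
      (by
        convert (d₁.mono (k' := k + k' + 1) (by omega)).dv (fun b => PSq b ∧ nm b ≤ Y)
          fun n hn => hn.1.1) ?_
    · intro x hx
      beta_reduce at hx
      have hp : PSq x := by
        by_contra hc
        exact hx (if_neg hc)
      rw [if_pos hp] at hx
      obtain ⟨u, r, hu, hr, rfl, hu', hr'⟩ := cv_ne_zero hx
      obtain ⟨-, u1, u2⟩ := hy.supp u hu'
      obtain ⟨r1, r2⟩ := hH r hr (left_ne_zero_of_mul hr')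
      refine ⟨hp, ?_, ?_⟩
      · have : Y ^ (50099 / 100000 : ℝ) = Y ^ (1 / 2 - 1 / 100000 : ℝ) * Y ^ (1 / 1000 : ℝ) := by
          rw [← Real.rpow_add hY0]; norm_num
        rw [this, nm_mul]
        exact mul_lt_mul'' (hy.hA.trans_lt u1) r1 (by positivity) (by positivity)
      · rw [nm_mul]
        exact (mul_le_mul u2 r2 (nm_nonneg _) (by positivity)).trans hAR
    · intro b hb
      beta_reduce at hb
      have hp : PSq b ∧ nm b ≤ Y := by
        by_contra hc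
        exact hb (if_neg hc)
      rw [if_pos hp] at hb
      refine ⟨hp.1, ?_, hp.2⟩
      by_contra hc
      exact hb (by simp only [hβ₁]; rw [if_neg (show ¬ (1 : ℝ) < (nN b : ℝ) from hc), mul_zero])
    · have s1 := bvs_smul bβ ((T⁻¹ : ℝ) : ℂ)
      have s2 := (s1.mul_bv (bv_gt 1)).mul_bv (bv_le Y)
      refine (bvs_congr s2 fun n hn => ?_).mono ?_ (by omega)
      · by_cases hn' : nm n ≤ Y
        · rw [if_pos ⟨hn, hn'⟩, if_pos (show (nN n : ℝ) ≤ Y from hn'), mul_one]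
        · rw [if_neg fun h' => hn' h'.2, if_neg (show ¬ (nN n : ℝ) ≤ Y from hn'), mul_zero]
      · have : 0 ≤ Real.log Y ^ c₁ := by positivity
        rw [hTn, ← mul_assoc T⁻¹, inv_mul_cancel₀ hT0.ne', pow_succ]
        nlinarith
  have b3 : ‖LL l a Y A α (cv H β₁)‖ ≤ C * Bd Y c + 1 := by
    have := norm_sub_norm_le (LL l a Y A α (cv H β₁))
      (Bil a Y (fun x => if PSq x then cv α (fun r => H r * al r ^ l) x else 0)
        (fun b => (if PSq b ∧ nm b ≤ Y then β₁ b else 0) * al b ^ l) Y Y)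
    rw [norm_sub_rev] at this
    linarith
  rw [hLL, norm_mul, Complex.norm_real, Real.norm_of_nonneg hT0.le]
  calc T * ‖LL l a Y A α (cv H β₁) + LL l a Y A α (cv H β₀)‖ ≤ T * (C * Bd Y c + 2 * Bd Y c) := by
        refine mul_le_mul_of_nonneg_left ((norm_add_le _ _).trans ?_) hT0.le
        linarith
    _ = _ := by ring

end Crest.Agent.R12.BH
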